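import Claimed.Agent.R285.Bc.Bes
import Claimed.Agent.R285.Base.Height

/-!
# ROW 285, package BP-E2 (helper148), REAL PART (merged from BesD, Shift, Gr, Resp, Graph; file budget).
Bessel derivative, shifted lattice sums, growth class, response bounds (abstract lattice system and graph level).
-/

set_option autoImplicit false

namespace Claimed.Agent.R285.E2

/-!
# ROW 285, package BP-E2 (helper148), file 1: calculus of the Bessel weight in the temperature.   Paper-free.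

* `e2_bes_hasDerivAt` : `∂_b p_b(k) = (p_b(k-1) + p_b(k+1))/2 - p_b(k)`  (all real `b`; from `bes_fourier`, differentiation under the integral);
* `e2_bes_rec` : `k p_b(k) = (b/2) (p_b(k-1) - p_b(k+1))`  (`BC1.bc1_bes_rec`).
-/

section PartBesD

open MeasureTheory Filter Topology

noncomputable section

theorem e2_bes_hasDerivAt (b : ℝ) (k : ℤ) :
    HasDerivAt (fun t : ℝ => bes t k) ((bes b (k - 1) + bes b (k + 1)) / 2 - bes b k) b := by
  have key := intervalIntegral.hasDerivAt_integral_of_dominated_loc_of_deriv_le (μ := volume)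
    (a := 0) (b := 2 * Real.pi)
    (F := fun (t θ : ℝ) => Real.exp (t * (Real.cos θ - 1)) * Real.cos (k * θ))
    (F' := fun (t θ : ℝ) => (Real.cos θ - 1) * Real.exp (t * (Real.cos θ - 1)) * Real.cos (k * θ))
    (x₀ := b) (s := Metric.ball b 1) (bound := fun _ => 2 * Real.exp (2 * (|b| + 1)))
    (Metric.ball_mem_nhds b one_pos) ?_ ?_ ?_ ?_ ?_ ?_
  · have h := key.2.const_mul ((2 * Real.pi)⁻¹)
    have e1 : (fun t : ℝ => bes t k) = fun t : ℝ => (2 * Real.pi)⁻¹ *
        ∫ θ in (0 : ℝ)..(2 * Real.pi), Real.exp (t * (Real.cos θ - 1)) * Real.cos (k * θ) := by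
      funext t
      exact bes_fourier t k
    rw [e1]
    refine h.congr_deriv ?_
    rw [bes_fourier b (k - 1), bes_fourier b (k + 1), bes_fourier b k]
    have hint : ∀ n : ℤ, IntervalIntegrable (fun θ : ℝ => Real.exp (b * (Real.cos θ - 1)) * Real.cos (n * θ))
        volume 0 (2 * Real.pi) := by
      intro n
      refine Continuous.intervalIntegrable ?_ _ _
      fun_prop
    have e2 : (fun θ : ℝ => (Real.cos θ - 1) * Real.exp (b * (Real.cos θ - 1)) * Real.cos (k * θ))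
        = fun θ : ℝ => (2 : ℝ)⁻¹ * (Real.exp (b * (Real.cos θ - 1)) * Real.cos (((k - 1 : ℤ) : ℝ) * θ)
          + Real.exp (b * (Real.cos θ - 1)) * Real.cos (((k + 1 : ℤ) : ℝ) * θ))
          - Real.exp (b * (Real.cos θ - 1)) * Real.cos (k * θ) := by
      funext θ
      have c1 : Real.cos (((k - 1 : ℤ) : ℝ) * θ) = Real.cos (k * θ) * Real.cos θ + Real.sin (k * θ) * Real.sin θ := by
        rw [← Real.cos_sub]
        congr 1
        push_cast
        ring
      have c2 : Real.cos (((k + 1 : ℤ) : ℝ) * θ) = Real.cos (k * θ) * Real.cos θ - Real.sin (k * θ) * Real.sin θ := by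
        rw [← Real.cos_add]
        congr 1
        push_cast
        ring
      rw [c1, c2]
      ring
    rw [e2, intervalIntegral.integral_sub (((hint (k - 1)).add (hint (k + 1))).const_mul _) (hint k),
      intervalIntegral.integral_const_mul, intervalIntegral.integral_add (hint (k - 1)) (hint (k + 1))]
    ring
  · refine Filter.Eventually.of_forall fun t => Continuous.aestronglyMeasurable ?_
    fun_prop
  · refine Continuous.intervalIntegrable ?_ _ _
    fun_prop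
  · refine Continuous.aestronglyMeasurable ?_
    fun_prop
  · refine Filter.Eventually.of_forall fun θ _ t ht => ?_
    rw [Metric.mem_ball, Real.dist_eq] at ht
    have h1 : |Real.cos θ - 1| ≤ 2 := by
      rw [abs_le]
      constructor <;> linarith [Real.neg_one_le_cos θ, Real.cos_le_one θ]
    have h2 : |t| ≤ |b| + 1 := by
      have := abs_sub_abs_le_abs_sub t b
      linarith
    have h3 : t * (Real.cos θ - 1) ≤ 2 * (|b| + 1) := by
      calc t * (Real.cos θ - 1) ≤ |t * (Real.cos θ - 1)| := le_abs_self _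
        _ = |t| * |Real.cos θ - 1| := abs_mul _ _
        _ ≤ (|b| + 1) * 2 := mul_le_mul h2 h1 (abs_nonneg _) (by positivity)
        _ = _ := by ring
    rw [Real.norm_eq_abs, abs_mul, abs_mul, abs_of_pos (Real.exp_pos _)]
    calc |Real.cos θ - 1| * Real.exp (t * (Real.cos θ - 1)) * |Real.cos (k * θ)|
        ≤ 2 * Real.exp (2 * (|b| + 1)) * 1 := by
          gcongr
          exact Real.abs_cos_le_one _
      _ = _ := by ring
  · exact intervalIntegrable_const
  · refine Filter.Eventually.of_forall fun θ _ t _ => ?_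
    have h1 : HasDerivAt (fun t : ℝ => t * (Real.cos θ - 1)) (Real.cos θ - 1) t := by
      simpa using (hasDerivAt_id t).mul_const (Real.cos θ - 1)
    have h2 := (h1.exp).mul_const (Real.cos (k * θ))
    refine h2.congr_deriv ?_
    ring

theorem e2_bes_rec (b : ℝ) (hb : 0 < b) (k : ℤ) :
    (k : ℝ) * bes b k = b / 2 * (bes b (k - 1) - bes b (k + 1)) := by
  rw [BC1.bc1_bes_rec b hb k]
  field_simp

end

end PartBesD

/-!
# ROW 285, package BP-E2 (helper148), file 2: the temperature derivative of lattice sums.   Paper-free.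

`Wu S t x` = the weight of `S` at the UNIFORM temperature `t` (`= (S.atb fun _ => t).W x` by `rfl`), `Zu S t α F = ∑_{z ∈ L} F z · Wu S t (z + α)` (`= (S.atb fun _ => t).Zf α F` by `rfl`),
`dl S e` = the unit datum in the Bessel direction `e`.
* `e2_Wu_hasDerivAt` : `∂_t Wu t x = ∑_e ((Wu t (x + δ_e) + Wu t (x - δ_e))/2 - Wu t x)`     ([E] "removing one Poisson unit")
* `e2_Wu_rec` : `x_e Wu t x = (t/2) (Wu t (x - δ_e) - Wu t (x + δ_e))`
* `e2_Zu_hasDerivAt` : the same under the sum, for `|F z| ≤ A exp (c · n1 z)`, `t > 0`.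
-/

section PartShift

open Rsd Filter Topology

noncomputable section

attribute [local instance] Classical.propDecidable

/-- the weight at the uniform temperature `t` -/
def Wu (S : LSys) (t : ℝ) (x : S.Amb) : ℝ := (∏ e, bes t (x.1 e)) * Real.exp (-(∑ o, x.2 o ^ 2) / 2)

/-- lattice sums at the uniform temperature `t` -/
def Zu (S : LSys) (t : ℝ) (α : S.Amb) (F : S.L → ℝ) : ℝ := ∑' z : S.L, F z * Wu S t ((z : S.Amb) + α)

theorem Wu_eq (S : LSys) (t : ℝ) (x : S.Amb) : Wu S t x = (S.atb fun _ => t).W x := rfl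

theorem Zu_eq (S : LSys) (t : ℝ) (α : S.Amb) (F : S.L → ℝ) : Zu S t α F = (S.atb fun _ => t).Zf α F := rfl

/-- the unit datum in the Bessel direction `e` -/
def dl (S : LSys) (e : S.E) : S.Amb := (fun e' => if e' = e then 1 else 0, 0)

theorem e2_ok_atb (S : LSys) (hS : S.Ok) (t : ℝ) (ht : 0 < t) : (S.atb fun _ => t).Ok :=
  ⟨fun _ => ht, hS.2⟩

theorem Wu_nonneg (S : LSys) (t : ℝ) (ht : 0 ≤ t) (x : S.Amb) : 0 ≤ Wu S t x :=
  kit_W_nonneg (S.atb fun _ => t) (fun _ => ht) x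

theorem Wu_pos (S : LSys) (t : ℝ) (ht : 0 < t) (x : S.Amb) : 0 < Wu S t x :=
  kit_W_pos (S.atb fun _ => t) (fun _ => ht) x

theorem Wu_neg (S : LSys) (t : ℝ) (x : S.Amb) : Wu S t (-x) = Wu S t x :=
  kit_W_neg (S.atb fun _ => t) x

/-- the Bessel part after a unit shift -/
theorem e2_prod_shift (S : LSys) (t : ℝ) (x : S.Amb) (e : S.E) (σ : ℤ) :
    ∏ e', bes t ((x + σ • dl S e).1 e') = (∏ e' ∈ Finset.univ.erase e, bes t (x.1 e')) * bes t (x.1 e + σ) := by
  classical
  rw [← Finset.prod_erase_mul _ _ (Finset.mem_univ e)]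
  congr 1
  · refine Finset.prod_congr rfl fun e' he' => ?_
    have : e' ≠ e := (Finset.mem_erase.1 he').1
    simp [dl, this]
  · simp [dl]

theorem e2_Wu_shift (S : LSys) (t : ℝ) (x : S.Amb) (e : S.E) (σ : ℤ) :
    Wu S t (x + σ • dl S e) = (∏ e' ∈ Finset.univ.erase e, bes t (x.1 e')) * bes t (x.1 e + σ)
      * Real.exp (-(∑ o, x.2 o ^ 2) / 2) := by
  unfold Wu
  rw [e2_prod_shift]
  congr 3
  simp [dl]

theorem e2_Wu_self (S : LSys) (t : ℝ) (x : S.Amb) (e : S.E) :
    Wu S t x = (∏ e' ∈ Finset.univ.erase e, bes t (x.1 e')) * bes t (x.1 e)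
      * Real.exp (-(∑ o, x.2 o ^ 2) / 2) := by
  have := e2_Wu_shift S t x e 0
  simpa using this

theorem e2_Wu_add (S : LSys) (t : ℝ) (x : S.Amb) (e : S.E) :
    Wu S t (x + dl S e) = (∏ e' ∈ Finset.univ.erase e, bes t (x.1 e')) * bes t (x.1 e + 1)
      * Real.exp (-(∑ o, x.2 o ^ 2) / 2) := by
  have := e2_Wu_shift S t x e 1
  simpa using this

theorem e2_Wu_sub (S : LSys) (t : ℝ) (x : S.Amb) (e : S.E) :
    Wu S t (x - dl S e) = (∏ e' ∈ Finset.univ.erase e, bes t (x.1 e')) * bes t (x.1 e - 1)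
      * Real.exp (-(∑ o, x.2 o ^ 2) / 2) := by
  have := e2_Wu_shift S t x e (-1)
  simpa [sub_eq_add_neg] using this

/-- the derivative of the weight in the temperature -/
def dWu (S : LSys) (t : ℝ) (x : S.Amb) : ℝ :=
  ∑ e, ((Wu S t (x + dl S e) + Wu S t (x - dl S e)) / 2 - Wu S t x)

theorem e2_Wu_hasDerivAt (S : LSys) (t : ℝ) (x : S.Amb) : HasDerivAt (fun t => Wu S t x) (dWu S t x) t := by
  have h1 := HasDerivAt.fun_finsetProd (u := Finset.univ) (f := fun (e : S.E) (t : ℝ) => bes t (x.1 e))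
    (f' := fun e => (bes t (x.1 e - 1) + bes t (x.1 e + 1)) / 2 - bes t (x.1 e)) (x := t)
    fun e _ => e2_bes_hasDerivAt t (x.1 e)
  have h2 := h1.mul_const (Real.exp (-(∑ o, x.2 o ^ 2) / 2))
  refine h2.congr_deriv ?_
  unfold dWu
  rw [Finset.sum_mul]
  refine Finset.sum_congr rfl fun e _ => ?_
  rw [e2_Wu_add, e2_Wu_sub, e2_Wu_self S t x e, smul_eq_mul]
  ring

theorem e2_Wu_rec (S : LSys) (t : ℝ) (ht : 0 < t) (x : S.Amb) (e : S.E) :
    (x.1 e : ℝ) * Wu S t x = t / 2 * (Wu S t (x - dl S e) - Wu S t (x + dl S e)) := by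
  rw [e2_Wu_add, e2_Wu_sub, e2_Wu_self S t x e]
  have := e2_bes_rec t ht (x.1 e)
  calc (x.1 e : ℝ) * ((∏ e' ∈ Finset.univ.erase e, bes t (x.1 e')) * bes t (x.1 e)
        * Real.exp (-(∑ o, x.2 o ^ 2) / 2))
      = (∏ e' ∈ Finset.univ.erase e, bes t (x.1 e')) * ((x.1 e : ℝ) * bes t (x.1 e))
        * Real.exp (-(∑ o, x.2 o ^ 2) / 2) := by ring
    _ = _ := by rw [this]; ring

/-! ### differentiation under the sum -/

theorem e2_CW_mono (S : LSys) (s T : ℝ) (hsT : s ≤ T) (τ : ℝ) :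
    CW (S.atb fun _ => s) τ ≤ CW (S.atb fun _ => T) τ := by
  unfold CW
  refine mul_le_mul_of_nonneg_right ?_ (Finset.prod_nonneg fun _ _ => (Real.exp_pos _).le)
  refine Finset.prod_le_prod (fun _ _ => (Real.exp_pos _).le) fun e _ => ?_
  apply Real.exp_le_exp.2
  exact mul_le_mul_of_nonneg_right hsT (by linarith [Real.one_le_cosh τ])

/-- the constant of the domination, uniform for temperatures in `[0, T]` -/
def Dc (S : LSys) (T τ : ℝ) (α : S.Amb) : ℝ := CW (S.atb fun _ => T) τ * Real.exp (τ * n1 S α)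

theorem Dc_nonneg (S : LSys) (T τ : ℝ) (α : S.Amb) : 0 ≤ Dc S T τ α :=
  (mul_pos (CW_pos _ _) (Real.exp_pos _)).le

/-- **domination**, uniform for temperatures in `[0, T]`. -/
theorem e2_dom (S : LSys) (T s : ℝ) (hs0 : 0 ≤ s) (hsT : s ≤ T) (c K : ℝ) (hcK : 0 ≤ c + K) (z α : S.Amb) :
    Real.exp (c * n1 S z) * Wu S s (z + α) ≤ Dc S T (c + K) α * Real.exp (-(K * n1 S z)) := by
  have h := kit_dom (S.atb fun _ => s) (fun _ => hs0) c K hcK z α
  refine h.trans ?_
  unfold Dc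
  refine mul_le_mul_of_nonneg_right ?_ (Real.exp_pos _).le
  exact mul_le_mul_of_nonneg_right (e2_CW_mono S s T hsT _) (Real.exp_pos _).le

theorem e2_dom_F (S : LSys) (F : S.L → ℝ) (A c : ℝ)
    (hF : ∀ z : S.L, |F z| ≤ A * Real.exp (c * n1 S (z : S.Amb))) (T s : ℝ) (hs0 : 0 ≤ s) (hsT : s ≤ T) (K : ℝ)
    (hcK : 0 ≤ c + K) (z : S.L) (α : S.Amb) :
    |F z| * Wu S s ((z : S.Amb) + α) ≤ A * Dc S T (c + K) α * Real.exp (-(K * n1 S (z : S.Amb))) := by
  have hA : 0 ≤ A := by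
    have := (abs_nonneg _).trans (hF 0)
    exact nonneg_of_mul_nonneg_left this (Real.exp_pos _)
  calc |F z| * Wu S s ((z : S.Amb) + α) ≤ A * Real.exp (c * n1 S (z : S.Amb)) * Wu S s ((z : S.Amb) + α) :=
        mul_le_mul_of_nonneg_right (hF z) (Wu_nonneg S s hs0 _)
    _ = A * (Real.exp (c * n1 S (z : S.Amb)) * Wu S s ((z : S.Amb) + α)) := by ring
    _ ≤ A * (Dc S T (c + K) α * Real.exp (-(K * n1 S (z : S.Amb)))) :=
        mul_le_mul_of_nonneg_left (e2_dom S T s hs0 hsT c K hcK _ _) hA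
    _ = _ := by ring

theorem e2_Zu_summable (S : LSys) (hS : S.Ok) (F : S.L → ℝ) (A c : ℝ) (hc : 0 ≤ c)
    (hF : ∀ z : S.L, |F z| ≤ A * Real.exp (c * n1 S (z : S.Amb))) (α : S.Amb) (t : ℝ) (ht : 0 < t) :
    Summable fun z : S.L => F z * Wu S t ((z : S.Amb) + α) :=
  kit_summable_of_exp_bound (S.atb fun _ => t) (e2_ok_atb S hS t ht) F A c hc hF α

/-- the derivative of `Zu` -/
def dZu (S : LSys) (t : ℝ) (α : S.Amb) (F : S.L → ℝ) : ℝ :=
  ∑ e, ((Zu S t (α + dl S e) F + Zu S t (α - dl S e) F) / 2 - Zu S t α F)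

theorem e2_tsum_dWu (S : LSys) (hS : S.Ok) (F : S.L → ℝ) (A c : ℝ) (hc : 0 ≤ c)
    (hF : ∀ z : S.L, |F z| ≤ A * Real.exp (c * n1 S (z : S.Amb))) (α : S.Amb) (t : ℝ) (ht : 0 < t) :
    ∑' z : S.L, F z * dWu S t ((z : S.Amb) + α) = dZu S t α F := by
  have hs := fun α' => e2_Zu_summable S hS F A c hc hF α' t ht
  unfold dWu dZu Zu
  simp only [Finset.mul_sum]
  rw [Summable.tsum_finsetSum]
  · refine Finset.sum_congr rfl fun e _ => ?_
    rw [← (hs (α + dl S e)).tsum_add (hs (α - dl S e)), ← tsum_div_const,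
      ← (((hs (α + dl S e)).add (hs (α - dl S e))).div_const 2).tsum_sub (hs α)]
    refine tsum_congr fun z => ?_
    rw [add_assoc, add_sub_assoc]
    ring
  · intro e _
    refine ((((hs (α + dl S e)).add (hs (α - dl S e))).div_const 2).sub (hs α)).congr fun z => ?_
    rw [add_assoc, add_sub_assoc]
    ring

/-- **the temperature derivative of a lattice sum** ([E] s2: "removing one Poisson unit"). -/
theorem e2_Zu_hasDerivAt (S : LSys) (hS : S.Ok) (F : S.L → ℝ) (A c : ℝ) (hc : 0 ≤ c)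
    (hF : ∀ z : S.L, |F z| ≤ A * Real.exp (c * n1 S (z : S.Amb))) (α : S.Amb) (t : ℝ) (ht : 0 < t) :
    HasDerivAt (fun t => Zu S t α F) (dZu S t α F) t := by
  obtain ⟨K, hK, hsum⟩ := kit_summable_n1 S hS
  rw [← e2_tsum_dWu S hS F A c hc hF α t ht]
  have hcK : 0 ≤ c + K := by positivity
  refine hasDerivAt_tsum_of_isPreconnected
    (u := fun z : S.L => (∑ e, ((A * Dc S (t + 1) (c + K) (α + dl S e) + A * Dc S (t + 1) (c + K) (α - dl S e)) / 2
      + A * Dc S (t + 1) (c + K) α)) * Real.exp (-(K * n1 S (z : S.Amb))))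
    (t := Set.Ioo 0 (t + 1)) (g := fun (z : S.L) (s : ℝ) => F z * Wu S s ((z : S.Amb) + α))
    (g' := fun (z : S.L) (s : ℝ) => F z * dWu S s ((z : S.Amb) + α)) (y₀ := t)
    ((hsum K le_rfl).mul_left _) isOpen_Ioo isPreconnected_Ioo ?_ ?_ ⟨ht, by linarith⟩
    (e2_Zu_summable S hS F A c hc hF α t ht) ⟨ht, by linarith⟩
  · intro z s _
    exact (e2_Wu_hasDerivAt S s _).const_mul (F z)
  · intro z s hs
    have hd := fun α' => e2_dom_F S F A c hF (t + 1) s hs.1.le hs.2.le K hcK z α'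
    rw [Real.norm_eq_abs, abs_mul]
    unfold dWu
    rw [Finset.sum_mul]
    calc |F z| * |∑ e, ((Wu S s ((z : S.Amb) + α + dl S e) + Wu S s ((z : S.Amb) + α - dl S e)) / 2
          - Wu S s ((z : S.Amb) + α))|
        ≤ |F z| * ∑ e, ((Wu S s ((z : S.Amb) + α + dl S e) + Wu S s ((z : S.Amb) + α - dl S e)) / 2
          + Wu S s ((z : S.Amb) + α)) := by
          refine mul_le_mul_of_nonneg_left ?_ (abs_nonneg _)
          refine (Finset.abs_sum_le_sum_abs _ _).trans (Finset.sum_le_sum fun e _ => ?_)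
          have h1 := Wu_nonneg S s hs.1.le ((z : S.Amb) + α + dl S e)
          have h2 := Wu_nonneg S s hs.1.le ((z : S.Amb) + α - dl S e)
          have h3 := Wu_nonneg S s hs.1.le ((z : S.Amb) + α)
          rw [abs_le]
          constructor <;> linarith
      _ = ∑ e, ((|F z| * Wu S s ((z : S.Amb) + (α + dl S e)) + |F z| * Wu S s ((z : S.Amb) + (α - dl S e))) / 2
          + |F z| * Wu S s ((z : S.Amb) + α)) := by
          rw [Finset.mul_sum]
          refine Finset.sum_congr rfl fun e _ => ?_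
          rw [add_assoc, add_sub_assoc]
          ring
      _ ≤ _ := by
          refine Finset.sum_le_sum fun e _ => ?_
          have h1 := hd (α + dl S e)
          have h2 := hd (α - dl S e)
          have h3 := hd α
          have : ((A * Dc S (t + 1) (c + K) (α + dl S e) + A * Dc S (t + 1) (c + K) (α - dl S e)) / 2
              + A * Dc S (t + 1) (c + K) α) * Real.exp (-(K * n1 S (z : S.Amb)))
              = (A * Dc S (t + 1) (c + K) (α + dl S e) * Real.exp (-(K * n1 S (z : S.Amb)))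
                + A * Dc S (t + 1) (c + K) (α - dl S e) * Real.exp (-(K * n1 S (z : S.Amb)))) / 2
                + A * Dc S (t + 1) (c + K) α * Real.exp (-(K * n1 S (z : S.Amb))) := by ring
          rw [this]
          linarith

/-- Stores the on-demand equation lemmas of the definitions above in THIS module (rule 6 hygiene). -/
theorem e2_shift_forced : True := by
  have := @Wu.eq_1
  have := @Zu.eq_1
  have := @dl.eq_1
  have := @dWu.eq_1
  have := @dZu.eq_1
  have := @Dc.eq_1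
  trivial

end

end PartShift

/-!
# ROW 285, package BP-E2 (helper148), file 3: functions of exponential growth on a lattice; linearity of `Zu`.   Paper-free.

`Gr S F` := `∃ A c, 0 ≤ c ∧ ∀ z, |F z| ≤ A exp (c · n1 z)`.  Closed under `+, *, -, smul, pow, finite sums`; contains constants, bounded functions, tests, `exp ∘ Y`, the coordinates `z_e`.
`Zu S t α` is linear and monotone on `Gr` (`t > 0`), differentiable in `t` (`e2_Zu_hasDerivAt'`), `Zu S t (-α) (F ∘ neg) = Zu S t α F`.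
-/

section PartGr

open Rsd Filter Topology

noncomputable section

/-- exponential growth -/
def Gr (S : LSys) (F : S.L → ℝ) : Prop :=
  ∃ A c : ℝ, 0 ≤ c ∧ ∀ z : S.L, |F z| ≤ A * Real.exp (c * n1 S (z : S.Amb))

variable {S : LSys} {F G : S.L → ℝ}

theorem Gr.of_le (hG : Gr S G) (h : ∀ z, |F z| ≤ |G z|) : Gr S F := by
  obtain ⟨A, c, hc, hA⟩ := hG
  exact ⟨A, c, hc, fun z => (h z).trans (hA z)⟩

theorem Gr.bdd (C : ℝ) (h : ∀ z, |F z| ≤ C) : Gr S F := ⟨C, 0, le_rfl, fun z => by simpa using h z⟩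

theorem Gr.const (c : ℝ) : Gr S fun _ => c := Gr.bdd |c| fun _ => le_rfl

theorem Gr.mul (hF : Gr S F) (hG : Gr S G) : Gr S fun z => F z * G z := by
  obtain ⟨A, c, hc, hA⟩ := hF
  obtain ⟨B, d, hd, hB⟩ := hG
  refine ⟨A * B, c + d, by positivity, fun z => ?_⟩
  rw [abs_mul, add_mul, Real.exp_add]
  calc |F z| * |G z| ≤ (A * Real.exp (c * n1 S (z : S.Amb))) * (B * Real.exp (d * n1 S (z : S.Amb))) :=
        mul_le_mul (hA z) (hB z) (abs_nonneg _) ((abs_nonneg _).trans (hA z))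
    _ = _ := by ring

theorem Gr.add (hF : Gr S F) (hG : Gr S G) : Gr S fun z => F z + G z := by
  obtain ⟨A, c, hc, hA⟩ := hF
  obtain ⟨B, d, hd, hB⟩ := hG
  have hA0 : 0 ≤ A := nonneg_of_mul_nonneg_left ((abs_nonneg _).trans (hA 0)) (Real.exp_pos _)
  have hB0 : 0 ≤ B := nonneg_of_mul_nonneg_left ((abs_nonneg _).trans (hB 0)) (Real.exp_pos _)
  refine ⟨A + B, c + d, by positivity, fun z => ?_⟩
  have hn := n1_nonneg S (z : S.Amb)
  have h1 : Real.exp (c * n1 S (z : S.Amb)) ≤ Real.exp ((c + d) * n1 S (z : S.Amb)) :=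
    Real.exp_le_exp.2 (by nlinarith)
  have h2 : Real.exp (d * n1 S (z : S.Amb)) ≤ Real.exp ((c + d) * n1 S (z : S.Amb)) :=
    Real.exp_le_exp.2 (by nlinarith)
  calc |F z + G z| ≤ |F z| + |G z| := abs_add_le _ _
    _ ≤ A * Real.exp (c * n1 S (z : S.Amb)) + B * Real.exp (d * n1 S (z : S.Amb)) := add_le_add (hA z) (hB z)
    _ ≤ A * Real.exp ((c + d) * n1 S (z : S.Amb)) + B * Real.exp ((c + d) * n1 S (z : S.Amb)) := by gcongr
    _ = _ := by ring

theorem Gr.neg (hF : Gr S F) : Gr S fun z => -F z := hF.of_le fun z => by rw [abs_neg]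

theorem Gr.sub (hF : Gr S F) (hG : Gr S G) : Gr S fun z => F z - G z := by
  simpa [sub_eq_add_neg] using hF.add hG.neg

theorem Gr.smul (c : ℝ) (hF : Gr S F) : Gr S fun z => c * F z := (Gr.const c).mul hF

theorem Gr.pow (hF : Gr S F) (n : ℕ) : Gr S fun z => F z ^ n := by
  induction n with
  | zero => simpa using Gr.const (S := S) 1
  | succ n ih => simpa [pow_succ] using ih.mul hF

theorem Gr.abs (hF : Gr S F) : Gr S fun z => |F z| := hF.of_le fun z => by rw [abs_abs]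

theorem Gr.sum {ι : Type*} (s : Finset ι) (f : ι → S.L → ℝ) (h : ∀ i ∈ s, Gr S (f i)) :
    Gr S fun z => ∑ i ∈ s, f i z := by
  classical
  induction s using Finset.induction_on with
  | empty => simpa using Gr.const (S := S) 0
  | insert a s ha ih =>
    simp only [Finset.sum_insert ha]
    exact (h a (Finset.mem_insert_self a s)).add (ih fun i hi => h i (Finset.mem_insert_of_mem hi))

theorem Gr.cos (f : S.L → ℝ) : Gr S fun z => Real.cos (f z) := Gr.bdd 1 fun _ => Real.abs_cos_le_one _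

theorem Gr.n1 : Gr S fun z => n1 S (z : S.Amb) := by
  refine ⟨1, 1, zero_le_one, fun z => ?_⟩
  rw [abs_of_nonneg (n1_nonneg S _), one_mul, one_mul]
  linarith [Real.add_one_le_exp (Rsd.n1 S (z : S.Amb))]

theorem Gr.test (hS : S.Ok) (X : S.L →+ ℝ) : Gr S fun z => X z := by
  obtain ⟨C, hC, hX⟩ := kit_test_bound S hS X
  refine (Gr.n1.smul C).of_le fun z => ?_
  rw [abs_of_nonneg (mul_nonneg hC (n1_nonneg S _))]
  exact hX z

theorem Gr.exp_test (hS : S.Ok) (X : S.L →+ ℝ) : Gr S fun z => Real.exp (X z) := by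
  obtain ⟨C, hC, hX⟩ := kit_test_bound S hS X
  refine ⟨1, C, hC, fun z => ?_⟩
  rw [abs_of_pos (Real.exp_pos _), one_mul]
  exact Real.exp_le_exp.2 ((le_abs_self _).trans (hX z))

theorem Gr.coord (e : S.E) : Gr S fun z => (((z : S.Amb).1 e : ℤ) : ℝ) := by
  refine Gr.n1.of_le fun z => ?_
  rw [abs_of_nonneg (n1_nonneg S _)]
  have h1 : |(((z : S.Amb).1 e : ℤ) : ℝ)| ≤ ∑ e, |(((z : S.Amb).1 e : ℤ) : ℝ)| :=
    Finset.single_le_sum (f := fun e => |(((z : S.Amb).1 e : ℤ) : ℝ)|) (fun _ _ => abs_nonneg _) (Finset.mem_univ e)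
  have h2 : 0 ≤ ∑ o, |(z : S.Amb).2 o| := Finset.sum_nonneg fun _ _ => abs_nonneg _
  unfold Rsd.n1
  linarith

/-! ### `Zu` on `Gr` -/

theorem Gr.summable (hS : S.Ok) (hF : Gr S F) (t : ℝ) (ht : 0 < t) (α : S.Amb) :
    Summable fun z : S.L => F z * Wu S t ((z : S.Amb) + α) := by
  obtain ⟨A, c, hc, hA⟩ := hF
  exact e2_Zu_summable S hS F A c hc hA α t ht

theorem e2_Zu_hasDerivAt' (hS : S.Ok) (hF : Gr S F) (α : S.Amb) (t : ℝ) (ht : 0 < t) :
    HasDerivAt (fun t => Zu S t α F) (dZu S t α F) t := by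
  obtain ⟨A, c, hc, hA⟩ := hF
  exact e2_Zu_hasDerivAt S hS F A c hc hA α t ht

theorem Zu_add (hS : S.Ok) (hF : Gr S F) (hG : Gr S G) (t : ℝ) (ht : 0 < t) (α : S.Amb) :
    Zu S t α (fun z => F z + G z) = Zu S t α F + Zu S t α G := by
  unfold Zu
  rw [← (hF.summable hS t ht α).tsum_add (hG.summable hS t ht α)]
  exact tsum_congr fun z => by ring

theorem Zu_smul (c : ℝ) (F : S.L → ℝ) (t : ℝ) (α : S.Amb) : Zu S t α (fun z => c * F z) = c * Zu S t α F := by
  unfold Zu
  rw [← tsum_mul_left]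
  exact tsum_congr fun z => by ring

theorem Zu_neg (F : S.L → ℝ) (t : ℝ) (α : S.Amb) : Zu S t α (fun z => -F z) = -Zu S t α F := by
  simpa using Zu_smul (-1) F t α

theorem Zu_sum (hS : S.Ok) {ι : Type*} (s : Finset ι) (f : ι → S.L → ℝ) (h : ∀ i ∈ s, Gr S (f i)) (t : ℝ)
    (ht : 0 < t) (α : S.Amb) : Zu S t α (fun z => ∑ i ∈ s, f i z) = ∑ i ∈ s, Zu S t α (f i) := by
  unfold Zu
  rw [← Summable.tsum_finsetSum fun i hi => (h i hi).summable hS t ht α]
  exact tsum_congr fun z => by rw [Finset.sum_mul]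

theorem Zu_mono (hS : S.Ok) (hF : Gr S F) (hG : Gr S G) (t : ℝ) (ht : 0 < t) (α : S.Amb) (h : ∀ z, F z ≤ G z) :
    Zu S t α F ≤ Zu S t α G :=
  (hF.summable hS t ht α).tsum_le_tsum (fun z => mul_le_mul_of_nonneg_right (h z) (Wu_nonneg S t ht.le _))
    (hG.summable hS t ht α)

theorem Zu_nonneg (t : ℝ) (ht : 0 ≤ t) (α : S.Amb) (h : ∀ z, 0 ≤ F z) : 0 ≤ Zu S t α F :=
  tsum_nonneg fun z => mul_nonneg (h z) (Wu_nonneg S t ht _)

theorem Zu_congr (t : ℝ) (α : S.Amb) (h : ∀ z, F z = G z) : Zu S t α F = Zu S t α G := by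
  have : F = G := funext h
  rw [this]

/-- inversion symmetry -/
theorem Zu_inv (F : S.L → ℝ) (t : ℝ) (α : S.Amb) : Zu S t (-α) (fun z => F (-z)) = Zu S t α F := by
  unfold Zu
  rw [← (Equiv.neg S.L).tsum_eq]
  refine tsum_congr fun z => ?_
  have : (((Equiv.neg S.L) z : S.L) : S.Amb) + -α = -((z : S.Amb) + α) := by
    simp [add_comm]
  rw [this, Wu_neg]
  simp

theorem Zu_even (F : S.L → ℝ) (hF : ∀ z, F (-z) = F z) (t : ℝ) (α : S.Amb) : Zu S t (-α) F = Zu S t α F := by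
  rw [← Zu_inv F t α]
  exact Zu_congr t _ fun z => (hF z).symm

theorem Zu_odd (F : S.L → ℝ) (hF : ∀ z, F (-z) = -F z) (t : ℝ) (α : S.Amb) : Zu S t (-α) F = -Zu S t α F := by
  rw [← Zu_inv F t α, ← Zu_neg]
  exact Zu_congr t _ fun z => by rw [hF z, neg_neg]

theorem Zu_one_pos (hS : S.Ok) (t : ℝ) (ht : 0 < t) (α : S.Amb) : 0 < Zu S t α fun _ => 1 :=
  ((Gr.const 1).summable hS t ht α).tsum_pos (fun _ => (mul_pos one_pos (Wu_pos S t ht _)).le) 0
    (mul_pos one_pos (Wu_pos S t ht _))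

/-- Stores the on-demand equation lemmas of the definitions above in THIS module (rule 6 hygiene). -/
theorem e2_gr_forced : True := by
  have := @Gr.eq_1
  trivial

end

end PartGr

/-!
# ROW 285, package BP-E2 (helper148), file 4: THE TEMPERATURE RESPONSE ([E] L2.6) for abstract systems.

`S` proper, uniform temperature `t > 0`, `V(t) = (S.atb fun _ => t).V0 X`.  With `a_e = Zu t δ_e X²`, `m_e = Zu t δ_e X`, `w_e = Zu t δ_e 1`, `w = Zu t 0 1`:
* `e2_V0_hasDerivAt` : `V' = ∑_e (a_e - V w_e) / w`                                   ([E] (2.11), exact identity)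
* `e2_term_lower`    : `(a_e - V w_e)/w ≥ m_e² / (w_e w)`                              (`lsys_var_affine`)
* `e2_cov_edge`      : `Zu t 0 (z_e X) = - t m_e`                                      ([E] (2.12), from `k p(k) = (t/2)(p(k-1) - p(k+1))`)
* `e2_response_lower`: `X = ∑ ω_e z_e` on `L`  ⟹  `V² ≤ t² (∑ ω_e²) V'`                (Cauchy-Schwarz + `lsys_le_centred`)
* `e2_reference_shift`: `wT α X / w 0 ≤ exp (-∑ ω_e α_e) exp (∑ b_e (cosh ω_e - 1))`    (reference cost with a connection; `lsys_ratio_mono` to the free system)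
* `e2_response_upper`: `V' ≤ |E| · 2 e · exp (t √e / 2) · ∑ ω_e²`
* `e2_phi_differentiableAt`, `e2_V0_differentiableAt`.
The paper's upper bound goes through `E N²`, `E X⁴`; here it follows from the exact identity and the shifted reference bound.
-/

section PartResp

open Rsd Filter Topology

noncomputable section

variable {S : LSys}

theorem e2_w_eq (t : ℝ) (α : S.Amb) : (S.atb fun _ => t).w α = Zu S t α fun _ => 1 := rfl

theorem e2_V0_eq (X : S.L →+ ℝ) (t : ℝ) :
    (S.atb fun _ => t).V0 X = Zu S t 0 (fun z => X z ^ 2) / Zu S t 0 fun _ => 1 :=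
  (rd_V0_eq (S := S.atb fun _ => t) X).trans (rd_E0_eq (S := S.atb fun _ => t) fun z => X z ^ 2)

theorem e2_phi_eq (X : S.L →+ ℝ) (t : ℝ) :
    (S.atb fun _ => t).phi X = Zu S t 0 (fun z => Real.cos (X z)) / Zu S t 0 fun _ => 1 :=
  rd_E0_eq (S := S.atb fun _ => t) fun z => Real.cos (X z)

theorem e2_Ev_zero (S' : LSys) (α : S'.Amb) (F : S'.L → ℝ) : S'.Ev α 0 F = S'.Zf α F / S'.w α := by
  simp [LSys.Ev, rd_wT_zero]

/-- `lsys_var_affine` in the notation of this file -/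
theorem e2_var_affine (hS : S.Ok) (X : S.L →+ ℝ) (t : ℝ) (ht : 0 < t) (α : S.Amb) :
    (S.atb fun _ => t).V0 X ≤ Zu S t α (fun z => X z ^ 2) / Zu S t α (fun _ => 1)
      - (Zu S t α (fun z => X z) / Zu S t α fun _ => 1) ^ 2 := by
  have h := lsys_var_affine (S.atb fun _ => t) (e2_ok_atb S hS t ht) α 0 X
  have e0 : (S.atb fun _ => t).Cv α 0 X X = Zu S t α (fun z => X z * X z) / Zu S t α (fun _ => 1)
      - (Zu S t α (fun z => X z) / Zu S t α fun _ => 1) * (Zu S t α (fun z => X z) / Zu S t α fun _ => 1) :=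
    congrArg₂ (· - ·) (e2_Ev_zero (S.atb fun _ => t) α fun z => X z * X z)
      (congrArg₂ (· * ·) (e2_Ev_zero (S.atb fun _ => t) α fun z => X z)
        (e2_Ev_zero (S.atb fun _ => t) α fun z => X z))
  have e : Zu S t α (fun z => X z * X z) = Zu S t α fun z => X z ^ 2 :=
    Zu_congr t α fun z => by ring
  rw [e] at e0
  rw [sq, ← e0]
  exact h

theorem e2_w_le (hS : S.Ok) (t : ℝ) (ht : 0 < t) (α : S.Amb) : Zu S t α (fun _ => 1) ≤ Zu S t 0 fun _ => 1 :=
  lsys_le_centred (S.atb fun _ => t) (e2_ok_atb S hS t ht) α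

/-- the derivative of the variance -/
def dV (S : LSys) (X : S.L →+ ℝ) (t : ℝ) : ℝ :=
  ∑ e, (Zu S t (dl S e) (fun z => X z ^ 2) - (S.atb fun _ => t).V0 X * Zu S t (dl S e) fun _ => 1)
    / Zu S t 0 fun _ => 1

theorem e2_dZu_even (F : S.L → ℝ) (hF : ∀ z, F (-z) = F z) (t : ℝ) :
    dZu S t 0 F = ∑ e, (Zu S t (dl S e) F - Zu S t 0 F) := by
  unfold dZu
  refine Finset.sum_congr rfl fun e _ => ?_
  rw [zero_add, zero_sub, Zu_even F hF]
  ring

/-- **the exact response identity** ([E] (2.11)). -/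
theorem e2_V0_hasDerivAt (hS : S.Ok) (X : S.L →+ ℝ) (t : ℝ) (ht : 0 < t) :
    HasDerivAt (fun t => (S.atb fun _ => t).V0 X) (dV S X t) t := by
  have ha := e2_Zu_hasDerivAt' hS ((Gr.test hS X).pow 2) 0 t ht
  have hw := e2_Zu_hasDerivAt' hS (Gr.const (S := S) 1) 0 t ht
  have hw0 := Zu_one_pos hS t ht (0 : S.Amb)
  have h := ha.div hw hw0.ne'
  have e1 : (fun t => (S.atb fun _ => t).V0 X)
      = fun t => Zu S t 0 (fun z => X z ^ 2) / Zu S t 0 fun _ => 1 := funext fun t => e2_V0_eq X t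
  rw [e1]
  refine h.congr_deriv ?_
  rw [e2_dZu_even _ (fun z => by rw [map_neg, neg_sq]), e2_dZu_even _ fun _ => rfl]
  unfold dV
  rw [e2_V0_eq, Finset.sum_mul, Finset.mul_sum, ← Finset.sum_sub_distrib, Finset.sum_div]
  refine Finset.sum_congr rfl fun e _ => ?_
  field_simp
  ring

theorem e2_V0_differentiableAt (hS : S.Ok) (X : S.L →+ ℝ) (t : ℝ) (ht : 0 < t) :
    DifferentiableAt ℝ (fun t => (S.atb fun _ => t).V0 X) t := (e2_V0_hasDerivAt hS X t ht).differentiableAt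

theorem e2_phi_differentiableAt (hS : S.Ok) (X : S.L →+ ℝ) (t : ℝ) (ht : 0 < t) :
    DifferentiableAt ℝ (fun t => (S.atb fun _ => t).phi X) t := by
  have ha := e2_Zu_hasDerivAt' hS (Gr.cos (S := S) fun z => X z) 0 t ht
  have hw := e2_Zu_hasDerivAt' hS (Gr.const (S := S) 1) 0 t ht
  have hw0 := Zu_one_pos hS t ht (0 : S.Amb)
  have e1 : (fun t => (S.atb fun _ => t).phi X)
      = fun t => Zu S t 0 (fun z => Real.cos (X z)) / Zu S t 0 fun _ => 1 := funext fun t => e2_phi_eq X t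
  rw [e1]
  exact (ha.div hw hw0.ne').differentiableAt

/-- each term of the response identity dominates the squared shifted mean -/
theorem e2_term_lower (hS : S.Ok) (X : S.L →+ ℝ) (t : ℝ) (ht : 0 < t) (e : S.E) :
    Zu S t (dl S e) (fun z => X z) ^ 2 / (Zu S t (dl S e) (fun _ => 1) * Zu S t 0 fun _ => 1) ≤
      (Zu S t (dl S e) (fun z => X z ^ 2) - (S.atb fun _ => t).V0 X * Zu S t (dl S e) fun _ => 1)
        / Zu S t 0 fun _ => 1 := by
  have h := e2_var_affine hS X t ht (dl S e)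
  have hw0 := Zu_one_pos hS t ht (0 : S.Amb)
  have hwe := Zu_one_pos hS t ht (dl S e)
  set V := (S.atb fun _ => t).V0 X
  set a := Zu S t (dl S e) fun z => X z ^ 2
  set m := Zu S t (dl S e) fun z => X z
  set we := Zu S t (dl S e) fun _ => 1
  set w := Zu S t 0 fun _ => 1
  have h2 : V * we ≤ a - m ^ 2 / we := by
    have := mul_le_mul_of_nonneg_right h hwe.le
    have e1 : (a / we - (m / we) ^ 2) * we = a - m ^ 2 / we := by
      field_simp
    rwa [e1] at this
  rw [div_le_div_iff₀ (by positivity) hw0]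
  have h3 : m ^ 2 / we * we = m ^ 2 := by field_simp
  nlinarith [mul_pos hwe hw0, mul_pos hw0 hw0]

theorem e2_dV_lower (hS : S.Ok) (X : S.L →+ ℝ) (t : ℝ) (ht : 0 < t) :
    ∑ e, Zu S t (dl S e) (fun z => X z) ^ 2 / (Zu S t (dl S e) (fun _ => 1) * Zu S t 0 fun _ => 1) ≤ dV S X t :=
  Finset.sum_le_sum fun e _ => e2_term_lower hS X t ht e

theorem e2_dV_nonneg (hS : S.Ok) (X : S.L →+ ℝ) (t : ℝ) (ht : 0 < t) : 0 ≤ dV S X t :=
  le_trans (Finset.sum_nonneg fun _ _ => div_nonneg (sq_nonneg _)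
    (mul_pos (Zu_one_pos hS t ht _) (Zu_one_pos hS t ht _)).le) (e2_dV_lower hS X t ht)

/-- **gradient of the covariance** ([E] (2.12)). -/
theorem e2_cov_edge (hS : S.Ok) (X : S.L →+ ℝ) (t : ℝ) (ht : 0 < t) (e : S.E) :
    Zu S t 0 (fun z => (((z : S.Amb).1 e : ℤ) : ℝ) * X z) = -t * Zu S t (dl S e) fun z => X z := by
  have hX := Gr.test hS X
  have h1 : Zu S t 0 (fun z => (((z : S.Amb).1 e : ℤ) : ℝ) * X z)
      = t / 2 * (Zu S t (-dl S e) (fun z => X z) - Zu S t (dl S e) fun z => X z) := by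
    unfold Zu
    rw [← (hX.summable hS t ht (-dl S e)).tsum_sub (hX.summable hS t ht (dl S e)), ← tsum_mul_left]
    refine tsum_congr fun z => ?_
    have := e2_Wu_rec S t ht (z : S.Amb) e
    rw [add_zero, ← sub_eq_add_neg]
    calc (((z : S.Amb).1 e : ℤ) : ℝ) * X z * Wu S t (z : S.Amb)
        = X z * ((((z : S.Amb).1 e : ℤ) : ℝ) * Wu S t (z : S.Amb)) := by ring
      _ = _ := by rw [this]; ring
  rw [h1, Zu_odd _ fun z => map_neg X z]
  ring

/-- **[E] L2.6, lower bound**, abstract form: `X = ∑ ω_e z_e` on the lattice. -/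
theorem e2_response_lower (hS : S.Ok) (X : S.L →+ ℝ) (ω : S.E → ℝ)
    (hX : ∀ z : S.L, X z = ∑ e, ω e * (((z : S.Amb).1 e : ℤ) : ℝ)) (t : ℝ) (ht : 0 < t) :
    (S.atb fun _ => t).V0 X ^ 2 ≤ t ^ 2 * (∑ e, ω e ^ 2) * dV S X t := by
  have hw := Zu_one_pos hS t ht (0 : S.Amb)
  have ha : Zu S t 0 (fun z => X z ^ 2) = -t * ∑ e, ω e * Zu S t (dl S e) fun z => X z := by
    have h1 : Zu S t 0 (fun z => X z ^ 2)
        = Zu S t 0 (fun z => ∑ e, ω e * ((((z : S.Amb).1 e : ℤ) : ℝ) * X z)) := by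
      refine Zu_congr t 0 fun z => ?_
      rw [sq]
      nth_rewrite 1 [hX z]
      rw [Finset.sum_mul]
      exact Finset.sum_congr rfl fun e _ => by ring
    rw [h1, Zu_sum hS _ _ (fun e _ => ((Gr.coord e).mul (Gr.test hS X)).smul (ω e)) t ht, Finset.mul_sum]
    refine Finset.sum_congr rfl fun e _ => ?_
    rw [Zu_smul, e2_cov_edge hS X t ht]
    ring
  have hV : (S.atb fun _ => t).V0 X * Zu S t 0 (fun _ => 1)
      = -t * ∑ e, ω e * Zu S t (dl S e) fun z => X z := by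
    rw [e2_V0_eq, div_mul_cancel₀ _ hw.ne', ha]
  have hcs : (∑ e, ω e * Zu S t (dl S e) fun z => X z) ^ 2
      ≤ (∑ e, ω e ^ 2) * ∑ e, Zu S t (dl S e) (fun z => X z) ^ 2 := Finset.sum_mul_sq_le_sq_mul_sq _ _ _
  have hm : ∑ e, Zu S t (dl S e) (fun z => X z) ^ 2 ≤ Zu S t 0 (fun _ => 1) ^ 2 * dV S X t := by
    calc ∑ e, Zu S t (dl S e) (fun z => X z) ^ 2
        ≤ ∑ e, Zu S t 0 (fun _ => 1) ^ 2 * (Zu S t (dl S e) (fun z => X z) ^ 2
            / (Zu S t (dl S e) (fun _ => 1) * Zu S t 0 fun _ => 1)) := by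
          refine Finset.sum_le_sum fun e _ => ?_
          have hwe := Zu_one_pos hS t ht (dl S e)
          have hle := e2_w_le hS t ht (dl S e)
          rw [← mul_div_assoc, le_div_iff₀ (by positivity)]
          have : Zu S t (dl S e) (fun _ => 1) * Zu S t 0 (fun _ => 1) ≤ Zu S t 0 (fun _ => 1) ^ 2 := by
            rw [sq]
            exact mul_le_mul_of_nonneg_right hle hw.le
          calc Zu S t (dl S e) (fun z => X z) ^ 2 * (Zu S t (dl S e) (fun _ => 1) * Zu S t 0 fun _ => 1)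
              ≤ Zu S t (dl S e) (fun z => X z) ^ 2 * Zu S t 0 (fun _ => 1) ^ 2 :=
                mul_le_mul_of_nonneg_left this (sq_nonneg _)
            _ = _ := by ring
      _ = Zu S t 0 (fun _ => 1) ^ 2 * ∑ e, Zu S t (dl S e) (fun z => X z) ^ 2
            / (Zu S t (dl S e) (fun _ => 1) * Zu S t 0 fun _ => 1) := (Finset.mul_sum _ _ _).symm
      _ ≤ _ := mul_le_mul_of_nonneg_left (e2_dV_lower hS X t ht) (sq_nonneg _)
  have hQ : 0 ≤ ∑ e, ω e ^ 2 := Finset.sum_nonneg fun _ _ => sq_nonneg _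
  have key : (S.atb fun _ => t).V0 X ^ 2 * Zu S t 0 (fun _ => 1) ^ 2
      ≤ (t ^ 2 * (∑ e, ω e ^ 2) * dV S X t) * Zu S t 0 (fun _ => 1) ^ 2 := by
    calc (S.atb fun _ => t).V0 X ^ 2 * Zu S t 0 (fun _ => 1) ^ 2
        = ((S.atb fun _ => t).V0 X * Zu S t 0 fun _ => 1) ^ 2 := by ring
      _ = t ^ 2 * (∑ e, ω e * Zu S t (dl S e) fun z => X z) ^ 2 := by rw [hV]; ring
      _ ≤ t ^ 2 * ((∑ e, ω e ^ 2) * (Zu S t 0 (fun _ => 1) ^ 2 * dV S X t)) := by
          refine mul_le_mul_of_nonneg_left ?_ (sq_nonneg _)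
          exact hcs.trans (mul_le_mul_of_nonneg_left hm hQ)
      _ = _ := by ring
  exact le_of_mul_le_mul_right key (by positivity)

/-! ### the reference cost with a connection, and the upper bound -/

/-- gauge change with a tilt -/
theorem e2_wT_gauge (S' : LSys) (α : S'.Amb) (g : S'.L) (Y : S'.L →+ ℝ) :
    S'.wT (α + g) Y = Real.exp (-Y g) * S'.wT α Y := by
  unfold LSys.wT LSys.Zf
  rw [← tsum_mul_left,
    ← (Equiv.addRight g).tsum_eq fun z : S'.L => Real.exp (-Y g) * (Real.exp (Y z) * S'.W ((z : S'.Amb) + α))]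
  refine tsum_congr fun z => ?_
  have e1 : (z : S'.Amb) + (α + g) = (((Equiv.addRight g) z : S'.L) : S'.Amb) + α := by
    simp only [Equiv.coe_addRight, AddSubgroup.coe_add]
    abel
  have e2 : Real.exp (-Y g) * Real.exp (Y ((Equiv.addRight g) z)) = Real.exp (Y z) := by
    rw [← Real.exp_add]
    congr 1
    simp
  rw [e1, ← mul_assoc, e2]

/-- **reference cost with a connection**: the tilted shifted-to-centred ratio is at most that of independent bonds. -/
theorem e2_reference_shift (S' : LSys) (hS' : S'.Ok) (ω : S'.E → ℝ) (X : S'.L →+ ℝ)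
    (hX : ∀ z : S'.L, X z = ∑ e, ω e * (((z : S'.Amb).1 e : ℤ) : ℝ)) (α : S'.Amb) :
    S'.wT α X / S'.w 0 ≤
      Real.exp (-∑ e, ω e * ((α.1 e : ℤ) : ℝ)) * Real.exp (∑ e, S'.b e * (Real.cosh (ω e) - 1)) := by
  have h := Rsd.lsys_ratio_mono (freeRef S') (freeSys_ok S' hS'.1) hS' α (flowStat S' ω)
  have e1 : (flowStat S' ω).comp (freeRef S').psi = X := by
    ext z
    rw [hX z]
    rfl
  have e2 : (freeSys S').wT ((freeRef S').res α) (flowStat S' ω)
      = Real.exp (-(flowStat S' ω ⟨(freeRef S').res α, AddSubgroup.mem_top _⟩))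
        * (freeSys S').wT 0 (flowStat S' ω) := by
    have := e2_wT_gauge (freeSys S') 0 ⟨(freeRef S').res α, AddSubgroup.mem_top _⟩ (flowStat S' ω)
    rwa [zero_add] at this
  rw [e1, free_w S' hS'.1, div_one, e2, free_wT S' hS'.1] at h
  exact h

theorem e2_exp_sub_one_le (y : ℝ) : Real.exp y - 1 ≤ y * Real.exp y := by
  have h := Real.add_one_le_exp (-y)
  have h2 := mul_le_mul_of_nonneg_right h (Real.exp_pos y).le
  rw [← Real.exp_add, neg_add_cancel, Real.exp_zero] at h2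
  linarith

theorem e2_cosh_sum_le {ι : Type*} [Fintype ι] (ω : ι → ℝ) (h : ∑ e, ω e ^ 2 ≤ 1) :
    ∑ e, (Real.cosh (ω e) - 1) ≤ Real.exp (1 / 2) / 2 := by
  have h1 : ∀ e, Real.cosh (ω e) - 1 ≤ ω e ^ 2 * (Real.exp (1 / 2) / 2) := by
    intro e
    have hle : ω e ^ 2 ≤ 1 :=
      (Finset.single_le_sum (f := fun e => ω e ^ 2) (fun _ _ => sq_nonneg _) (Finset.mem_univ e)).trans h
    have a1 := Real.cosh_le_exp_half_sq (ω e)
    have a2 := e2_exp_sub_one_le (ω e ^ 2 / 2)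
    have a3 : Real.exp (ω e ^ 2 / 2) ≤ Real.exp (1 / 2) := Real.exp_le_exp.2 (by linarith)
    have a4 : ω e ^ 2 / 2 * Real.exp (ω e ^ 2 / 2) ≤ ω e ^ 2 / 2 * Real.exp (1 / 2) :=
      mul_le_mul_of_nonneg_left a3 (by positivity)
    linarith
  calc ∑ e, (Real.cosh (ω e) - 1) ≤ ∑ e, ω e ^ 2 * (Real.exp (1 / 2) / 2) := Finset.sum_le_sum fun e _ => h1 e
    _ = (∑ e, ω e ^ 2) * (Real.exp (1 / 2) / 2) := (Finset.sum_mul _ _ _).symm
    _ ≤ 1 * (Real.exp (1 / 2) / 2) := mul_le_mul_of_nonneg_right h (by positivity)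
    _ = _ := one_mul _

/-- exponential moment of a normalised flow in a law shifted by one unit -/
theorem e2_wT_unit (hS : S.Ok) (Y : S.L →+ ℝ) (ω : S.E → ℝ)
    (hY : ∀ z : S.L, Y z = ∑ e, ω e * (((z : S.Amb).1 e : ℤ) : ℝ)) (hω : ∑ e, ω e ^ 2 ≤ 1) (t : ℝ) (ht : 0 < t)
    (e : S.E) :
    Zu S t (dl S e) (fun z => Real.exp (Y z)) / Zu S t 0 (fun _ => 1)
      ≤ Real.exp 1 * Real.exp (t * (Real.exp (1 / 2) / 2)) := by
  classical
  have h := e2_reference_shift (S.atb fun _ => t) (e2_ok_atb S hS t ht) ω Y hY (dl S e)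
  refine le_trans h ?_
  have h1 : -∑ e', ω e' * (((dl S e).1 e' : ℤ) : ℝ) ≤ 1 := by
    have e1 : ∑ e', ω e' * (((dl S e).1 e' : ℤ) : ℝ) = ω e := by
      rw [Finset.sum_eq_single e]
      · simp [dl]
      · intro e' _ hne
        simp [dl, hne]
      · intro hne
        exact absurd (Finset.mem_univ e) hne
    rw [e1]
    have hle : ω e ^ 2 ≤ 1 :=
      (Finset.single_le_sum (f := fun e => ω e ^ 2) (fun _ _ => sq_nonneg _) (Finset.mem_univ e)).trans hω
    nlinarith [sq_nonneg (ω e + 1)]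
  have h2 : ∑ e' : S.E, t * (Real.cosh (ω e') - 1) ≤ t * (Real.exp (1 / 2) / 2) := by
    rw [← Finset.mul_sum]
    exact mul_le_mul_of_nonneg_left (e2_cosh_sum_le ω hω) ht.le
  exact mul_le_mul (Real.exp_le_exp.2 h1) (Real.exp_le_exp.2 h2) (Real.exp_pos _).le (Real.exp_pos _).le

theorem e2_sq_le_exp (x : ℝ) : x ^ 2 ≤ 2 * (Real.exp x + Real.exp (-x)) := by
  have h := Real.quadratic_le_exp_of_nonneg (abs_nonneg x)
  rw [sq_abs] at h
  have h2 : Real.exp |x| ≤ Real.exp x + Real.exp (-x) := by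
    rcases abs_cases x with ⟨h, _⟩ | ⟨h, _⟩ <;> rw [h] <;> linarith [Real.exp_pos x, Real.exp_pos (-x)]
  linarith [abs_nonneg x]

/-- the constant of the upper response bound -/
def Cup (t : ℝ) : ℝ := 4 * Real.exp 1 * Real.exp (t * (Real.exp (1 / 2) / 2))

theorem e2_edge_upper (hS : S.Ok) (X : S.L →+ ℝ) (ω : S.E → ℝ)
    (hX : ∀ z : S.L, X z = ∑ e, ω e * (((z : S.Amb).1 e : ℤ) : ℝ)) (t : ℝ) (ht : 0 < t) (e : S.E) :
    Zu S t (dl S e) (fun z => X z ^ 2) / Zu S t 0 (fun _ => 1) ≤ Cup t * ∑ e, ω e ^ 2 := by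
  have hw := Zu_one_pos hS t ht (0 : S.Amb)
  have hQ0 : 0 ≤ ∑ e, ω e ^ 2 := Finset.sum_nonneg fun _ _ => sq_nonneg _
  rcases hQ0.eq_or_lt with hQ | hQ
  · have hω : ∀ e, ω e = 0 := by
      intro e
      have := (Finset.sum_eq_zero_iff_of_nonneg fun e _ => sq_nonneg (ω e)).1 hQ.symm e (Finset.mem_univ e)
      exact pow_eq_zero_iff (two_ne_zero) |>.1 this
    have h0 : Zu S t (dl S e) (fun z => X z ^ 2) = 0 := by
      have : (fun z : S.L => X z ^ 2) = fun _ => 0 := by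
        funext z
        rw [hX z]
        simp [hω]
      rw [this]
      simp [Zu]
    rw [h0, ← hQ]
    simp
  · set Q := ∑ e, ω e ^ 2 with hQdef
    set s := Real.sqrt Q with hs
    have hs0 : 0 < s := Real.sqrt_pos.2 hQ
    have hs2 : s ^ 2 = Q := Real.sq_sqrt hQ.le
    set Y : S.L →+ ℝ := (s⁻¹ : ℝ) • X with hYdef
    have hYz : ∀ z, Y z = s⁻¹ * X z := fun z => rfl
    have hY : ∀ z : S.L, Y z = ∑ e, (s⁻¹ * ω e) * (((z : S.Amb).1 e : ℤ) : ℝ) := by
      intro z
      rw [hYz, hX z, Finset.mul_sum]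
      exact Finset.sum_congr rfl fun e _ => by ring
    have hY' : ∀ z : S.L, (-Y) z = ∑ e, (-(s⁻¹ * ω e)) * (((z : S.Amb).1 e : ℤ) : ℝ) := by
      intro z
      rw [AddMonoidHom.neg_apply, hY z, ← Finset.sum_neg_distrib]
      exact Finset.sum_congr rfl fun e _ => by ring
    have hn : ∑ e, (s⁻¹ * ω e) ^ 2 ≤ 1 := by
      have : ∑ e, (s⁻¹ * ω e) ^ 2 = (s ^ 2)⁻¹ * Q := by
        rw [hQdef, Finset.mul_sum]
        exact Finset.sum_congr rfl fun e _ => by rw [mul_pow, inv_pow]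
      rw [this, hs2, inv_mul_cancel₀ hQ.ne']
    have hn' : ∑ e, (-(s⁻¹ * ω e)) ^ 2 ≤ 1 := by simpa using hn
    have u1 := e2_wT_unit hS Y _ hY hn t ht e
    have u2 := e2_wT_unit hS (-Y) _ hY' hn' t ht e
    have hle : Zu S t (dl S e) (fun z => X z ^ 2)
        ≤ 2 * Q * (Zu S t (dl S e) (fun z => Real.exp (Y z)) + Zu S t (dl S e) fun z => Real.exp ((-Y) z)) := by
      rw [← Zu_add hS (Gr.exp_test hS Y) (Gr.exp_test hS (-Y)) t ht, ← Zu_smul]
      refine Zu_mono hS ((Gr.test hS X).pow 2) (((Gr.exp_test hS Y).add (Gr.exp_test hS (-Y))).smul _) t ht _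
        fun z => ?_
      have h1 := e2_sq_le_exp (Y z)
      have h2 : X z ^ 2 = Q * Y z ^ 2 := by
        rw [hYz, mul_pow, inv_pow, hs2]
        field_simp
      rw [h2, AddMonoidHom.neg_apply]
      calc Q * Y z ^ 2 ≤ Q * (2 * (Real.exp (Y z) + Real.exp (-Y z))) := mul_le_mul_of_nonneg_left h1 hQ.le
        _ = _ := by ring
    calc Zu S t (dl S e) (fun z => X z ^ 2) / Zu S t 0 (fun _ => 1)
        ≤ 2 * Q * (Zu S t (dl S e) (fun z => Real.exp (Y z)) + Zu S t (dl S e) fun z => Real.exp ((-Y) z))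
          / Zu S t 0 (fun _ => 1) := div_le_div_of_nonneg_right hle hw.le
      _ = 2 * Q * (Zu S t (dl S e) (fun z => Real.exp (Y z)) / Zu S t 0 (fun _ => 1)
          + Zu S t (dl S e) (fun z => Real.exp ((-Y) z)) / Zu S t 0 (fun _ => 1)) := by ring
      _ ≤ 2 * Q * (Real.exp 1 * Real.exp (t * (Real.exp (1 / 2) / 2))
          + Real.exp 1 * Real.exp (t * (Real.exp (1 / 2) / 2))) :=
          mul_le_mul_of_nonneg_left (add_le_add u1 u2) (by positivity)
      _ = _ := by unfold Cup; ring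

/-- **[E] L2.6, upper bound**, abstract form. -/
theorem e2_response_upper (hS : S.Ok) (X : S.L →+ ℝ) (ω : S.E → ℝ)
    (hX : ∀ z : S.L, X z = ∑ e, ω e * (((z : S.Amb).1 e : ℤ) : ℝ)) (t : ℝ) (ht : 0 < t) :
    dV S X t ≤ Fintype.card S.E * (Cup t * ∑ e, ω e ^ 2) := by
  have hw := Zu_one_pos hS t ht (0 : S.Amb)
  have hV : 0 ≤ (S.atb fun _ => t).V0 X := rd_V0_nonneg (e2_ok_atb S hS t ht) X
  calc dV S X t ≤ ∑ _e : S.E, Cup t * ∑ e, ω e ^ 2 := by
        refine Finset.sum_le_sum fun e _ => ?_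
        refine le_trans ?_ (e2_edge_upper hS X ω hX t ht e)
        refine div_le_div_of_nonneg_right ?_ hw.le
        have := mul_nonneg hV (Zu_one_pos hS t ht (dl S e)).le
        linarith
    _ = _ := by simp

/-- Stores the on-demand equation lemmas of the definitions above in THIS module (rule 6 hygiene). -/
theorem e2_resp_forced : True := by
  have := @dV.eq_1
  have := @Cup.eq_1
  trivial

end

end PartResp

/-!
# ROW 285, package BP-E2 (helper148), file 5: the temperature response on a finite graph ([E] L2.5 (real part), L2.6).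

`G : HGraph`, pins `P`, the plain law proper (every component pinned).  Test `X_f h = ∑_v f v · h v` (`h` = physical height).
`hflow`: `X_f (2π h) = ∑_e ω_e ∇_e h` for all pinned integer heights (`ω` = `2π ×` a flow representing `f`; reference cost `∑ ω_e² / 4π²`).
* `e2_Vr_eq`, `e2_Ex_cos_eq` : `G.Vr`, `G.Ex (cos ∘ X_f)` are `V0`, `phi` of the abstract system `sysP G P` at the uniform temperature `b`;
* `e2_graph_differentiable_Vr`, `e2_graph_differentiable_cos`;
* `e2_graph_response_lower` : `Vr² ≤ b² (∑ ω²) ∂_b Vr`;   `e2_graph_response_upper` : `∂_b Vr ≤ |E| · Cup b · ∑ ω²`.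
-/

section PartGraph

open Rsd Filter Topology

noncomputable section

variable (G : HGraph) (P : Set G.V)

/-- the abstract system of the plain law (reference temperature `1`; the temperature is moved by `LSys.atb`) -/
abbrev sysP : LSys := (HLaw.plain G P).sys 1

theorem sysP_ok : (sysP G P).Ok :=
  haveI : IsEmpty (HLaw.plain G P).O := inferInstanceAs (IsEmpty Empty)
  hlaw_ok_of_isEmpty (HLaw.plain G P) 1 one_pos

variable {G P}

/-- pinned heights ≃ image lattice -/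
def eL (hP : (HLaw.plain G P).Proper) : (HLaw.plain G P).Λ ≃+ (sysP G P).L :=
  AddEquiv.ofBijective (coordL (HLaw.plain G P) 1) (coordL_bijective (HLaw.plain G P) hP 1)

/-- the test `∑_v f v · (2π h_v)` on the image lattice -/
def physT (hP : (HLaw.plain G P).Proper) (f : G.V → ℝ) : (sysP G P).L →+ ℝ where
  toFun z := ∑ v, f v * (2 * Real.pi * ((((eL hP).symm z : (HLaw.plain G P).Λ) : G.V → ℤ) v : ℝ))
  map_zero' := by simp
  map_add' z z' := by
    rw [← Finset.sum_add_distrib]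
    refine Finset.sum_congr rfl fun v _ => ?_
    rw [map_add]
    simp only [AddSubgroup.coe_add, Pi.add_apply, Int.cast_add]
    ring

theorem physT_apply (hP : (HLaw.plain G P).Proper) (f : G.V → ℝ) (h : (HLaw.plain G P).Λ) :
    physT hP f (eL hP h) = ∑ v, f v * (2 * Real.pi * (((h : G.V → ℤ) v : ℤ) : ℝ)) := by
  show ∑ v, f v * (2 * Real.pi * ((((eL hP).symm (eL hP h) : (HLaw.plain G P).Λ) : G.V → ℤ) v : ℝ)) = _
  rw [AddEquiv.symm_apply_apply]

/-- **bridge**: sums over pinned heights are lattice sums of `sysP G P` at the uniform temperature `b`. -/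
theorem e2_Zs_eq (hP : (HLaw.plain G P).Proper) (f : G.V → ℝ) (Φ : ℝ → ℝ) (b : ℝ) :
    G.Zs b P 0 0 (fun h => Φ (∑ v, f v * h v)) = Zu (sysP G P) b 0 fun z => Φ (physT hP f z) := by
  rw [hgraph_Zs_eq]
  have h := hlaw_Z_eq_Zf (HLaw.plain G P) hP b ⟨0, 0, fun o => o.elim⟩ (fun h => Φ (∑ v, f v * h v))
    (fun z => Φ (physT hP f z)) (fun h => by
      have := physT_apply hP f h
      simp only [Pi.zero_apply, add_zero]
      exact congrArg Φ this.symm)
  rw [h]
  have e0 : HLaw.Aff.amb (H := HLaw.plain G P) ⟨0, 0, fun o => o.elim⟩ b = 0 := by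
    refine Prod.ext ?_ (funext fun o => (o : Empty).elim)
    funext e
    show ((HLaw.plain G P).coord 0).1 e + 0 = 0
    rw [map_zero]
    rfl
  rw [e0]
  rfl

theorem e2_Zs_one (hP : (HLaw.plain G P).Proper) (b : ℝ) :
    G.Zs b P 0 0 (fun _ => 1) = Zu (sysP G P) b 0 fun _ => 1 :=
  e2_Zs_eq hP 0 (fun _ => 1) b

theorem e2_Vr_eq (hP : (HLaw.plain G P).Proper) (f : G.V → ℝ) (b : ℝ) :
    G.Vr b P (fun h => ∑ v, f v * h v) = ((sysP G P).atb fun _ => b).V0 (physT hP f) := by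
  unfold HGraph.Vr HGraph.Ex
  rw [e2_Zs_eq hP f (fun x => x ^ 2) b, e2_Zs_eq hP f (fun x => x) b, e2_Zs_one hP b, e2_V0_eq]
  have h0 : Zu (sysP G P) b 0 (fun z => physT hP f z) = 0 := by
    have := Zu_odd (fun z => physT hP f z) (fun z => map_neg _ z) b (0 : (sysP G P).Amb)
    rw [neg_zero] at this
    linarith
  rw [h0]
  simp

theorem e2_Ex_cos_eq (hP : (HLaw.plain G P).Proper) (f : G.V → ℝ) (b : ℝ) :
    G.Ex b P (fun h => Real.cos (∑ v, f v * h v)) = ((sysP G P).atb fun _ => b).phi (physT hP f) := by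
  unfold HGraph.Ex
  rw [e2_Zs_eq hP f Real.cos b, e2_Zs_one hP b, e2_phi_eq]

theorem e2_graph_differentiable_Vr (hP : (HLaw.plain G P).Proper) (f : G.V → ℝ) (b : ℝ) (hb : 0 < b) :
    DifferentiableAt ℝ (fun b => G.Vr b P fun h => ∑ v, f v * h v) b := by
  simp only [e2_Vr_eq hP f]
  exact e2_V0_differentiableAt (sysP_ok G P) _ b hb

theorem e2_graph_differentiable_cos (hP : (HLaw.plain G P).Proper) (f : G.V → ℝ) (b : ℝ) (hb : 0 < b) :
    DifferentiableAt ℝ (fun b => G.Ex b P fun h => Real.cos (∑ v, f v * h v)) b := by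
  simp only [e2_Ex_cos_eq hP f]
  exact e2_phi_differentiableAt (sysP_ok G P) _ b hb

/-- the flow representation on the image lattice -/
theorem e2_physT_flow (hP : (HLaw.plain G P).Proper) (f : G.V → ℝ) (ω : G.E → ℝ)
    (hflow : ∀ h : G.V → ℤ, (∀ v ∈ P, h v = 0) →
      ∑ v, f v * (2 * Real.pi * (h v : ℝ)) = ∑ e, ω e * ((h (G.tgt e) - h (G.src e) : ℤ) : ℝ))
    (z : (sysP G P).L) : physT hP f z = ∑ e : G.E, ω e * (((z : (sysP G P).Amb).1 e : ℤ) : ℝ) := by
  obtain ⟨h, rfl⟩ := (eL hP).surjective z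
  rw [physT_apply, hflow h h.2]
  rfl

theorem e2_graph_deriv (hP : (HLaw.plain G P).Proper) (f : G.V → ℝ) (b : ℝ) (hb : 0 < b) :
    deriv (fun b => G.Vr b P fun h => ∑ v, f v * h v) b = dV (sysP G P) (physT hP f) b := by
  simp only [e2_Vr_eq hP f]
  exact (e2_V0_hasDerivAt (sysP_ok G P) _ b hb).deriv

/-- **[E] L2.6, lower bound** on a finite graph. -/
theorem e2_graph_response_lower (hP : (HLaw.plain G P).Proper) (f : G.V → ℝ) (ω : G.E → ℝ)
    (hflow : ∀ h : G.V → ℤ, (∀ v ∈ P, h v = 0) →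
      ∑ v, f v * (2 * Real.pi * (h v : ℝ)) = ∑ e, ω e * ((h (G.tgt e) - h (G.src e) : ℤ) : ℝ))
    (b : ℝ) (hb : 0 < b) :
    G.Vr b P (fun h => ∑ v, f v * h v) ^ 2 ≤
      b ^ 2 * (∑ e, ω e ^ 2) * deriv (fun b => G.Vr b P fun h => ∑ v, f v * h v) b := by
  rw [e2_graph_deriv hP f b hb, e2_Vr_eq hP f]
  exact e2_response_lower (sysP_ok G P) _ ω (e2_physT_flow hP f ω hflow) b hb

/-- **[E] L2.6, upper bound** on a finite graph. -/
theorem e2_graph_response_upper (hP : (HLaw.plain G P).Proper) (f : G.V → ℝ) (ω : G.E → ℝ)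
    (hflow : ∀ h : G.V → ℤ, (∀ v ∈ P, h v = 0) →
      ∑ v, f v * (2 * Real.pi * (h v : ℝ)) = ∑ e, ω e * ((h (G.tgt e) - h (G.src e) : ℤ) : ℝ))
    (b : ℝ) (hb : 0 < b) :
    deriv (fun b => G.Vr b P fun h => ∑ v, f v * h v) b ≤ Fintype.card G.E * (Cup b * ∑ e, ω e ^ 2) := by
  rw [e2_graph_deriv hP f b hb]
  exact e2_response_upper (sysP_ok G P) _ ω (e2_physT_flow hP f ω hflow) b hb

theorem e2_graph_deriv_nonneg (hP : (HLaw.plain G P).Proper) (f : G.V → ℝ) (b : ℝ) (hb : 0 < b) :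
    0 ≤ deriv (fun b => G.Vr b P fun h => ∑ v, f v * h v) b := by
  rw [e2_graph_deriv hP f b hb]
  exact e2_dV_nonneg (sysP_ok G P) _ b hb

/-- Stores the on-demand equation lemmas of the definitions above in THIS module (rule 6 hygiene). -/
theorem e2_graph_forced : True := by
  have := @eL.eq_1
  have := @physT.eq_1
  trivial

end

end PartGraph

end Claimed.Agent.R285.E2
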