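import Claimed.Agent.R285.Rsd.MasterBes
import Claimed.Agent.R285.Rsd.MasterSum
import Claimed.Agent.R285.E2.Real

/-!
# ROW 285, package BP-E2 (helper148), COMPLEX TEMPERATURE AND SCORE (merged from Maj, BesC, BesCeq, Cplx, TV, Score; file budget).
-/

set_option autoImplicit false

namespace Claimed.Agent.R285.E2

/-!
# ROW 285, package BP-E2 (helper148), file 8: MAJORANT PAIRS.   Mathlib only.

`Maj x x₀ p p₀` : `‖x‖ ≤ p`, `‖x₀‖ ≤ p₀`, `‖x - x₀‖ ≤ p - p₀`.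
Think of `x = f(b)`, `x₀ = f(b₀)`, `p = f(b₀ + r)`, `p₀ = f(b₀)` for a power series `f` with nonnegative coefficients, `b₀ ≥ 0`, `|b - b₀| ≤ r`.
Closed under products, powers, finite products, (infinite) sums; contains the constants and `Maj b b₀ (b₀ + r) b₀`.
-/

section PartMaj

noncomputable section

/-- majorant pair -/
structure Maj (x x₀ : ℂ) (p p₀ : ℝ) : Prop where
  le : ‖x‖ ≤ p
  le0 : ‖x₀‖ ≤ p₀
  sub : ‖x - x₀‖ ≤ p - p₀

theorem Maj.const (c : ℂ) : Maj c c ‖c‖ ‖c‖ := ⟨le_rfl, le_rfl, by simp⟩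

theorem Maj.base (b : ℂ) (b₀ r : ℝ) (h0 : 0 ≤ b₀) (h : ‖b - b₀‖ ≤ r) : Maj b b₀ (b₀ + r) b₀ := by
  have e : ‖(b₀ : ℂ)‖ = b₀ := by rw [Complex.norm_real, Real.norm_eq_abs, abs_of_nonneg h0]
  refine ⟨?_, e.le, by simpa using h⟩
  calc ‖b‖ = ‖(b₀ : ℂ) + (b - b₀)‖ := by congr 1; ring
    _ ≤ ‖(b₀ : ℂ)‖ + ‖b - b₀‖ := norm_add_le _ _
    _ ≤ b₀ + r := by rw [e]; linarith

theorem Maj.mul {x x₀ y y₀ : ℂ} {p p₀ q q₀ : ℝ} (h : Maj x x₀ p p₀) (k : Maj y y₀ q q₀) :
    Maj (x * y) (x₀ * y₀) (p * q) (p₀ * q₀) := by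
  have hp0 : 0 ≤ p₀ := (norm_nonneg _).trans h.le0
  have hq : 0 ≤ q := (norm_nonneg _).trans k.le
  have hpp : 0 ≤ p - p₀ := (norm_nonneg _).trans h.sub
  refine ⟨?_, ?_, ?_⟩
  · rw [norm_mul]
    exact mul_le_mul h.le k.le (norm_nonneg _) ((norm_nonneg _).trans h.le)
  · rw [norm_mul]
    exact mul_le_mul h.le0 k.le0 (norm_nonneg _) hp0
  · calc ‖x * y - x₀ * y₀‖ = ‖(x - x₀) * y + x₀ * (y - y₀)‖ := by congr 1; ring
      _ ≤ ‖x - x₀‖ * ‖y‖ + ‖x₀‖ * ‖y - y₀‖ := by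
          refine (norm_add_le _ _).trans ?_
          rw [norm_mul, norm_mul]
      _ ≤ (p - p₀) * q + p₀ * (q - q₀) :=
          add_le_add (mul_le_mul h.sub k.le (norm_nonneg _) hpp) (mul_le_mul h.le0 k.sub (norm_nonneg _) hp0)
      _ = _ := by ring

theorem Maj.one : Maj 1 1 1 1 := by simpa using Maj.const 1

theorem Maj.pow {x x₀ : ℂ} {p p₀ : ℝ} (h : Maj x x₀ p p₀) (n : ℕ) : Maj (x ^ n) (x₀ ^ n) (p ^ n) (p₀ ^ n) := by
  induction n with
  | zero => simpa using Maj.one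
  | succ n ih => simpa [pow_succ] using ih.mul h

theorem Maj.prod {ι : Type*} (s : Finset ι) {x x₀ : ι → ℂ} {p p₀ : ι → ℝ} (h : ∀ i ∈ s, Maj (x i) (x₀ i) (p i) (p₀ i)) :
    Maj (∏ i ∈ s, x i) (∏ i ∈ s, x₀ i) (∏ i ∈ s, p i) (∏ i ∈ s, p₀ i) := by
  classical
  induction s using Finset.induction_on with
  | empty => simpa using Maj.one
  | insert a s ha ih =>
    simp only [Finset.prod_insert ha]
    exact (h a (Finset.mem_insert_self a s)).mul (ih fun i hi => h i (Finset.mem_insert_of_mem hi))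

/-- multiplication by a nonnegative real constant -/
theorem Maj.smul {x x₀ : ℂ} {p p₀ : ℝ} (h : Maj x x₀ p p₀) (c : ℝ) (hc : 0 ≤ c) :
    Maj (x * c) (x₀ * c) (p * c) (p₀ * c) := by
  have := h.mul (Maj.const (c : ℂ))
  rwa [Complex.norm_real, Real.norm_eq_abs, abs_of_nonneg hc] at this

theorem Maj.tsum {ι : Type*} {x x₀ : ι → ℂ} {p p₀ : ι → ℝ} (h : ∀ i, Maj (x i) (x₀ i) (p i) (p₀ i))
    (hp : Summable p) (hp0 : Summable p₀) : Maj (∑' i, x i) (∑' i, x₀ i) (∑' i, p i) (∑' i, p₀ i) := by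
  have hx : Summable fun i => ‖x i‖ := Summable.of_nonneg_of_le (fun _ => norm_nonneg _) (fun i => (h i).le) hp
  have hx0 : Summable fun i => ‖x₀ i‖ := Summable.of_nonneg_of_le (fun _ => norm_nonneg _) (fun i => (h i).le0) hp0
  have hd : Summable fun i => ‖x i - x₀ i‖ :=
    Summable.of_nonneg_of_le (fun _ => norm_nonneg _) (fun i => (h i).sub) (hp.sub hp0)
  refine ⟨?_, ?_, ?_⟩
  · exact (norm_tsum_le_tsum_norm hx).trans (hx.tsum_le_tsum (fun i => (h i).le) hp)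
  · exact (norm_tsum_le_tsum_norm hx0).trans (hx0.tsum_le_tsum (fun i => (h i).le0) hp0)
  · rw [← hx.of_norm.tsum_sub hx0.of_norm, ← hp.tsum_sub hp0]
    exact (norm_tsum_le_tsum_norm hd).trans (hd.tsum_le_tsum (fun i => (h i).sub) (hp.sub hp0))

end

end PartMaj

/-!
# ROW 285, package BP-E2 (helper148), file 9: the Bessel weight at COMPLEX temperature.   Paper-free.

`serC b k = ∑_n b^n/n! · srw n k = e^b p_b(k)` (compound Poisson form, `Rsd.ms_bes_srw`), `besC b k = e^{-b} serC b k` (entire in `b`).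
* `besC_ofReal` : `besC t k = bes t k` for real `t`;
* `serC_maj` : `Maj (serC b k) (serC b₀ k) (serR (b₀+r) k) (serR b₀ k)` for `b₀ ≥ 0`, `|b - b₀| ≤ r`  (`serR t k = e^t bes t k`);
* `besC_norm_le` : `|besC b k| ≤ e^{b₊ - Re b} bes b₊ k` for `|b| ≤ b₊`   ([E] (3.9): complex Poisson majorant);
* `besC_differentiable`.
-/

section PartBesC

open Rsd

noncomputable section

/-- `e^t p_t(k)` -/
def serR (t : ℝ) (k : ℤ) : ℝ := Real.exp t * bes t k

/-- `e^b p_b(k)`, complex `b` -/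
def serC (b : ℂ) (k : ℤ) : ℂ := ∑' n : ℕ, b ^ n / (n.factorial : ℂ) * (srw n k : ℂ)

/-- `p_b(k) = e^{-b} I_k(b)`, complex `b` -/
def besC (b : ℂ) (k : ℤ) : ℂ := Complex.exp (-b) * serC b k

theorem serR_hasSum (t : ℝ) (k : ℤ) : HasSum (fun n : ℕ => t ^ n / (n.factorial : ℝ) * srw n k) (serR t k) :=
  ms_bes_srw t k

theorem serR_nonneg (t : ℝ) (ht : 0 ≤ t) (k : ℤ) : 0 ≤ serR t k :=
  mul_nonneg (Real.exp_pos _).le (bes_nonneg t ht k)

theorem serC_ofReal (t : ℝ) (k : ℤ) : serC t k = (serR t k : ℂ) := by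
  unfold serC
  rw [← (serR_hasSum t k).tsum_eq, Complex.ofReal_tsum]
  refine tsum_congr fun n => ?_
  push_cast
  rfl

theorem besC_ofReal (t : ℝ) (k : ℤ) : besC t k = (bes t k : ℂ) := by
  unfold besC
  rw [serC_ofReal]
  unfold serR
  push_cast
  rw [← mul_assoc, ← Complex.exp_add]
  simp

theorem serC_maj (b : ℂ) (b₀ r : ℝ) (h0 : 0 ≤ b₀) (h : ‖b - b₀‖ ≤ r) (k : ℤ) :
    Maj (serC b k) (serC b₀ k) (serR (b₀ + r) k) (serR b₀ k) := by
  have hterm : ∀ n : ℕ, Maj (b ^ n / (n.factorial : ℂ) * (srw n k : ℂ))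
      ((b₀ : ℂ) ^ n / (n.factorial : ℂ) * (srw n k : ℂ))
      ((b₀ + r) ^ n / (n.factorial : ℝ) * srw n k) (b₀ ^ n / (n.factorial : ℝ) * srw n k) := by
    intro n
    have h1 := ((Maj.base b b₀ r h0 h).pow n).smul ((n.factorial : ℝ)⁻¹ * srw n k)
      (mul_nonneg (by positivity) (srw_nonneg n k))
    have e1 : b ^ n / (n.factorial : ℂ) * (srw n k : ℂ) = b ^ n * (((n.factorial : ℝ)⁻¹ * srw n k : ℝ) : ℂ) := by
      push_cast
      ring
    have e2 : (b₀ : ℂ) ^ n / (n.factorial : ℂ) * (srw n k : ℂ)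
        = (b₀ : ℂ) ^ n * (((n.factorial : ℝ)⁻¹ * srw n k : ℝ) : ℂ) := by
      push_cast
      ring
    have e3 : (b₀ + r) ^ n / (n.factorial : ℝ) * srw n k = (b₀ + r) ^ n * ((n.factorial : ℝ)⁻¹ * srw n k) := by ring
    have e4 : b₀ ^ n / (n.factorial : ℝ) * srw n k = b₀ ^ n * ((n.factorial : ℝ)⁻¹ * srw n k) := by ring
    rw [e1, e2, e3, e4]
    exact h1
  have := Maj.tsum hterm (serR_hasSum (b₀ + r) k).summable (serR_hasSum b₀ k).summable
  rwa [(serR_hasSum _ k).tsum_eq, (serR_hasSum _ k).tsum_eq] at this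

theorem serC_norm_le (b : ℂ) (bp : ℝ) (h : ‖b‖ ≤ bp) (k : ℤ) : ‖serC b k‖ ≤ serR bp k := by
  have := (serC_maj b 0 bp le_rfl (by simpa using h) k).le
  rwa [zero_add] at this

/-- **complex Poisson majorant** ([E] (3.9)). -/
theorem besC_norm_le (b : ℂ) (bp : ℝ) (h : ‖b‖ ≤ bp) (k : ℤ) :
    ‖besC b k‖ ≤ Real.exp (bp - b.re) * bes bp k := by
  unfold besC
  rw [norm_mul, Complex.norm_exp, Complex.neg_re]
  calc Real.exp (-b.re) * ‖serC b k‖ ≤ Real.exp (-b.re) * serR bp k :=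
        mul_le_mul_of_nonneg_left (serC_norm_le b bp h k) (Real.exp_pos _).le
    _ = _ := by
        unfold serR
        rw [← mul_assoc, ← Real.exp_add]
        congr 2
        ring

theorem serC_differentiable (k : ℤ) : Differentiable ℂ fun b => serC b k := by
  intro b
  have h := Complex.differentiableOn_tsum_of_summable_norm (u := fun n : ℕ => (‖b‖ + 1) ^ n / (n.factorial : ℝ))
    (Real.summable_pow_div_factorial _) (F := fun (n : ℕ) (w : ℂ) => w ^ n / (n.factorial : ℂ) * (srw n k : ℂ))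
    (U := Metric.ball 0 (‖b‖ + 1)) (fun n => by fun_prop) Metric.isOpen_ball (fun n w hw => by
      rw [mem_ball_zero_iff] at hw
      rw [norm_mul, norm_div, norm_pow, Complex.norm_natCast, Complex.norm_real, Real.norm_eq_abs,
        abs_of_nonneg (srw_nonneg n k)]
      calc ‖w‖ ^ n / (n.factorial : ℝ) * srw n k ≤ ‖w‖ ^ n / (n.factorial : ℝ) * 1 :=
            mul_le_mul_of_nonneg_left (srw_le_one n k) (by positivity)
        _ ≤ (‖b‖ + 1) ^ n / (n.factorial : ℝ) := by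
            rw [mul_one]
            gcongr)
  exact (h b (by simp)).differentiableAt (Metric.isOpen_ball.mem_nhds (by simp))

theorem besC_differentiable (k : ℤ) : Differentiable ℂ fun b => besC b k := by
  unfold besC
  exact (Complex.differentiable_exp.comp differentiable_neg).mul (serC_differentiable k)

/-- Stores the on-demand equation lemmas of the definitions above in THIS module (rule 6 hygiene). -/
theorem e2_besC_forced : True := by
  have := @serR.eq_1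
  have := @serC.eq_1
  have := @besC.eq_1
  trivial

end

end PartBesC

/-!
# ROW 285, package BP-E2 (helper148), file 13: `besC` is the power series `e^{-b} ∑_m (b/2)^{2m+|k|} / (m! (m+|k|)!)` (the definition used in `Ent/Defs.lean`).
Complex version of `Rsd.ms_bes_skel`, `Rsd.ms_bes_srw` (helper170), same proof.
-/

section PartBesCeq

open Rsd Finset

noncomputable section

theorem e2_hasSum_antidiagonal {f : ℕ × ℕ → ℂ} {a : ℂ} (h : HasSum f a) :
    HasSum (fun n => ∑ kl ∈ antidiagonal n, f kl) a := by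
  have h1 := (Finset.HasAntidiagonal.sigmaAntidiagonalEquivProd (A := ℕ)).hasSum_iff.2 h
  refine h1.sigma fun n => ?_
  have h2 := hasSum_fintype (fun c : antidiagonal n => f c)
  rw [Finset.sum_coe_sort (antidiagonal n) f] at h2
  exact h2

theorem e2_skel (b : ℂ) (k : ℤ) :
    HasSum (fun y : ℕ × ℕ => if (y.2 : ℤ) - y.1 = k then besD (b / 2) 0 y else 0)
      (∑' m : ℕ, (b / 2) ^ (2 * m + k.natAbs) / ((m.factorial : ℂ) * ((m + k.natAbs).factorial : ℂ))) := by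
  rw [← besEqv.hasSum_iff]
  have hinj : Function.Injective fun m : ℕ => ((k, m) : ℤ × ℕ) := fun m m' h => (Prod.mk.inj h).2
  rw [← hinj.hasSum_iff]
  · have h := (bes_inner_summable_c (b / 2) k).hasSum
    refine ms_hasSum_congr h fun m => ?_
    simp only [Function.comp, ms_besEqv_charge, if_true]
    rw [bes_D_eqv]
    simp
  · intro x hx
    simp only [Function.comp, ms_besEqv_charge]
    rw [if_neg]
    intro h
    exact hx ⟨x.2, by rw [← h]⟩

theorem serC_hasSum_power (b : ℂ) (k : ℤ) :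
    HasSum (fun n : ℕ => b ^ n / (n.factorial : ℂ) * (srw n k : ℂ))
      (∑' m : ℕ, (b / 2) ^ (2 * m + k.natAbs) / ((m.factorial : ℂ) * ((m + k.natAbs).factorial : ℂ))) := by
  have h := e2_hasSum_antidiagonal (e2_skel b k)
  refine ms_hasSum_congr h fun n => ?_
  symm
  have h2 : srw n k = (∑ ij ∈ antidiagonal n, (n.choose ij.1 : ℝ) * (if (ij.2 : ℤ) - ij.1 = k then 1 else 0)) / 2 ^ n := by
    rw [← ms_srw_eq, mul_div_cancel_right₀ _ (by positivity)]
  rw [h2]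
  push_cast
  rw [mul_div_assoc', Finset.mul_sum, Finset.sum_div]
  refine sum_congr rfl fun ij hij => ?_
  have hn : ij.1 + ij.2 = n := mem_antidiagonal.1 hij
  split_ifs
  · subst hn
    rw [Nat.cast_add_choose ℂ, besD, pow_add]
    simp only [neg_zero, Complex.exp_zero, mul_one, div_pow]
    rw [pow_add]
    have h1 : (ij.1.factorial : ℂ) ≠ 0 := by exact_mod_cast ij.1.factorial_ne_zero
    have h2 : (ij.2.factorial : ℂ) ≠ 0 := by exact_mod_cast ij.2.factorial_ne_zero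
    have h3 : ((ij.1 + ij.2).factorial : ℂ) ≠ 0 := by exact_mod_cast (ij.1 + ij.2).factorial_ne_zero
    field_simp
    simp
  · simp

/-- `besC` in power series form. -/
theorem besC_eq_power (b : ℂ) (k : ℤ) :
    besC b k = Complex.exp (-b) *
      ∑' m : ℕ, (b / 2) ^ (2 * m + k.natAbs) / ((m.factorial : ℂ) * ((m + k.natAbs).factorial : ℂ)) := by
  unfold besC serC
  rw [(serC_hasSum_power b k).tsum_eq]

end

end PartBesCeq

/-!
# ROW 285, package BP-E2 (helper148), file 10: lattice sums at COMPLEX temperature ([E] L2.5, (3.9)).   Paper-free.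

`WuC S b x` = weight at the uniform complex temperature `b` (real datum `x`), `ZuC S b α F = ∑_{z ∈ L} F z · WuC S b (z + α)`, `F : L → ℂ`.   `M = |E|`.
* `WuC_ofReal`, `ZuC_ofReal` : real temperatures give `Wu`, `Zu`;
* `WuC_norm_le` : `|WuC b x| ≤ e^{(b₊ - Re b) M} Wu b₊ x` for `|b| ≤ b₊`;   `ZuC_norm_le` : the same for sums                    ([E] (3.9))
* `WuC_sub_le` : `|WuC b x - Wu b₀ x| ≤ e^{2 r M} Wu (b₀ + r) x - Wu b₀ x` for `b₀ ≥ 0`, `|b - b₀| ≤ r`        (POINTWISE form of [E] (2.9); summed in `E2/TV.lean`)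
* `ZuC_differentiable` : `b ↦ ZuC S b α F` is ENTIRE when `‖F‖` has exponential growth.
Complex observation centres `η`: `exp (-½ ∑ (x_o + i η_o)²) = exp (-½ ∑ x_o²) · exp (-i ∑ η_o x_o) · exp (½ ∑ η_o²)`: put the unimodular factor into `F` (`e2_gauss_complex`).
-/

section PartCplx

open Rsd Filter Topology

noncomputable section

/-- the weight at the uniform complex temperature `b` -/
def WuC (S : LSys) (b : ℂ) (x : S.Amb) : ℂ :=
  (∏ e, besC b (x.1 e)) * ((Real.exp (-(∑ o, x.2 o ^ 2) / 2) : ℝ) : ℂ)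

/-- lattice sums at the uniform complex temperature `b` -/
def ZuC (S : LSys) (b : ℂ) (α : S.Amb) (F : S.L → ℂ) : ℂ := ∑' z : S.L, F z * WuC S b ((z : S.Amb) + α)

variable {S : LSys}

theorem WuC_ofReal (t : ℝ) (x : S.Amb) : WuC S t x = (Wu S t x : ℂ) := by
  unfold WuC Wu
  simp only [besC_ofReal]
  push_cast
  rfl

theorem ZuC_ofReal (t : ℝ) (α : S.Amb) (F : S.L → ℝ) : ZuC S t α (fun z => (F z : ℂ)) = (Zu S t α F : ℂ) := by
  unfold ZuC Zu
  rw [Complex.ofReal_tsum]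
  refine tsum_congr fun z => ?_
  rw [WuC_ofReal]
  push_cast
  rfl

theorem WuC_eq (b : ℂ) (x : S.Amb) :
    WuC S b x = Complex.exp (-b) ^ Fintype.card S.E * (∏ e, serC b (x.1 e))
      * ((Real.exp (-(∑ o, x.2 o ^ 2) / 2) : ℝ) : ℂ) := by
  unfold WuC besC
  rw [Finset.prod_mul_distrib, Finset.prod_const, Finset.card_univ]

theorem Wu_eq_ser (t : ℝ) (x : S.Amb) :
    Real.exp t ^ Fintype.card S.E * Wu S t x = (∏ e, serR t (x.1 e)) * Real.exp (-(∑ o, x.2 o ^ 2) / 2) := by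
  unfold Wu serR
  rw [Finset.prod_mul_distrib, Finset.prod_const, Finset.card_univ]
  ring

/-- **complex Poisson majorant** ([E] (3.9)), pointwise. -/
theorem WuC_norm_le (b : ℂ) (bp : ℝ) (h : ‖b‖ ≤ bp) (x : S.Amb) :
    ‖WuC S b x‖ ≤ Real.exp ((bp - b.re) * Fintype.card S.E) * Wu S bp x := by
  unfold WuC Wu
  rw [norm_mul, norm_prod, Complex.norm_real, Real.norm_eq_abs, abs_of_pos (Real.exp_pos _), ← mul_assoc]
  refine mul_le_mul_of_nonneg_right ?_ (Real.exp_pos _).le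
  calc ∏ e, ‖besC b (x.1 e)‖ ≤ ∏ e, Real.exp (bp - b.re) * bes bp (x.1 e) :=
        Finset.prod_le_prod (fun _ _ => norm_nonneg _) fun e _ => besC_norm_le b bp h _
    _ = _ := by
        rw [Finset.prod_mul_distrib, Finset.prod_const, Finset.card_univ, mul_comm (bp - b.re), Real.exp_nat_mul]

theorem e2_norm_exp_sub_one (z : ℂ) : ‖Complex.exp z - 1‖ ≤ Real.exp ‖z‖ - 1 := by
  simpa using Complex.norm_exp_sub_sum_le_exp_norm_sub_sum z 1

theorem e2_exp_pow_norm (b : ℂ) (b₀ r : ℝ) (h : ‖b - b₀‖ ≤ r) (M : ℕ) :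
    ‖Complex.exp (-b) ^ M‖ ≤ Real.exp (-(M * b₀)) * Real.exp (M * r) := by
  rw [norm_pow, Complex.norm_exp, ← Real.exp_nat_mul, ← Real.exp_add]
  apply Real.exp_le_exp.2
  have h1 : |(b - b₀).re| ≤ r := (Complex.abs_re_le_norm _).trans h
  have h2 : b₀ - b.re ≤ r := by
    have := neg_abs_le (b - b₀).re
    simp only [Complex.sub_re, Complex.ofReal_re] at this h1
    linarith
  have hM : (0 : ℝ) ≤ M := Nat.cast_nonneg M
  simp only [Complex.neg_re]
  nlinarith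

theorem e2_exp_pow_sub (b : ℂ) (b₀ r : ℝ) (h : ‖b - b₀‖ ≤ r) (M : ℕ) :
    ‖Complex.exp (-b) ^ M - Complex.exp (-(b₀ : ℂ)) ^ M‖ ≤ Real.exp (-(M * b₀)) * (Real.exp (M * r) - 1) := by
  have e1 : Complex.exp (-b) ^ M - Complex.exp (-(b₀ : ℂ)) ^ M
      = Complex.exp (-(b₀ : ℂ)) ^ M * (Complex.exp (-(M * (b - b₀))) - 1) := by
    rw [mul_sub, mul_one, ← Complex.exp_nat_mul, ← Complex.exp_nat_mul, ← Complex.exp_add]
    congr 2
    ring
  have e2 : ‖Complex.exp (-(b₀ : ℂ)) ^ M‖ = Real.exp (-(M * b₀)) := by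
    rw [norm_pow, Complex.norm_exp, ← Real.exp_nat_mul]
    simp
  rw [e1, norm_mul, e2]
  refine mul_le_mul_of_nonneg_left ?_ (Real.exp_pos _).le
  refine (e2_norm_exp_sub_one _).trans ?_
  have : ‖-((M : ℂ) * (b - b₀))‖ ≤ M * r := by
    rw [norm_neg, norm_mul, Complex.norm_natCast]
    exact mul_le_mul_of_nonneg_left h (Nat.cast_nonneg M)
  linarith [Real.exp_le_exp.2 this]

/-- **pointwise total variation bound** ([E] (2.9) before summation). -/
theorem WuC_sub_le (b : ℂ) (b₀ r : ℝ) (h0 : 0 ≤ b₀) (h : ‖b - b₀‖ ≤ r) (x : S.Amb) :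
    ‖WuC S b x - (Wu S b₀ x : ℂ)‖ ≤ Real.exp (2 * r * Fintype.card S.E) * Wu S (b₀ + r) x - Wu S b₀ x := by
  set M := Fintype.card S.E with hM
  set G := Real.exp (-(∑ o, x.2 o ^ 2) / 2) with hG
  have hG0 : 0 < G := Real.exp_pos _
  have hmaj : Maj (∏ e, serC b (x.1 e)) (∏ e, serC b₀ (x.1 e)) (∏ e, serR (b₀ + r) (x.1 e))
      (∏ e, serR b₀ (x.1 e)) := Maj.prod _ fun e _ => serC_maj b b₀ r h0 h _
  set Qc := ∏ e, serC b (x.1 e)
  set Q₀ := ∏ e, serC (b₀ : ℂ) (x.1 e)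
  set Pp := ∏ e, serR (b₀ + r) (x.1 e) with hPp
  set P₀ := ∏ e, serR b₀ (x.1 e) with hP₀
  have hP0 : 0 ≤ P₀ := (norm_nonneg _).trans hmaj.le0
  have hPd : 0 ≤ Pp - P₀ := (norm_nonneg _).trans hmaj.sub
  have n1 := e2_exp_pow_norm b b₀ r h M
  have n2 := e2_exp_pow_sub b b₀ r h M
  have hr : 0 ≤ r := (norm_nonneg _).trans h
  have hexp1 : 0 ≤ Real.exp (M * r) - 1 := by
    have : (0 : ℝ) ≤ M * r := by positivity
    linarith [Real.add_one_le_exp ((M : ℝ) * r)]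
  have key : ‖Complex.exp (-b) ^ M * Qc - Complex.exp (-(b₀ : ℂ)) ^ M * Q₀‖
      ≤ Real.exp (-(M * b₀)) * (Real.exp (M * r) * Pp - P₀) := by
    calc ‖Complex.exp (-b) ^ M * Qc - Complex.exp (-(b₀ : ℂ)) ^ M * Q₀‖
        = ‖Complex.exp (-b) ^ M * (Qc - Q₀) + (Complex.exp (-b) ^ M - Complex.exp (-(b₀ : ℂ)) ^ M) * Q₀‖ := by
          congr 1; ring
      _ ≤ ‖Complex.exp (-b) ^ M‖ * ‖Qc - Q₀‖ + ‖Complex.exp (-b) ^ M - Complex.exp (-(b₀ : ℂ)) ^ M‖ * ‖Q₀‖ := by
          refine (norm_add_le _ _).trans ?_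
          rw [norm_mul, norm_mul]
      _ ≤ Real.exp (-(M * b₀)) * Real.exp (M * r) * (Pp - P₀)
          + Real.exp (-(M * b₀)) * (Real.exp (M * r) - 1) * P₀ :=
          add_le_add (mul_le_mul n1 hmaj.sub (norm_nonneg _) (by positivity))
            (mul_le_mul n2 hmaj.le0 (norm_nonneg _) (mul_nonneg (Real.exp_pos _).le hexp1))
      _ = _ := by ring
  have e1 : WuC S b x - (Wu S b₀ x : ℂ)
      = (Complex.exp (-b) ^ M * Qc - Complex.exp (-(b₀ : ℂ)) ^ M * Q₀) * ((G : ℝ) : ℂ) := by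
    rw [← WuC_ofReal, WuC_eq, WuC_eq]
    ring
  rw [e1, norm_mul, Complex.norm_real, Real.norm_eq_abs, abs_of_pos hG0]
  have e2 := Wu_eq_ser (S := S) (b₀ + r) x
  have e3 := Wu_eq_ser (S := S) b₀ x
  rw [← hM, ← hG, ← hPp] at e2
  rw [← hM, ← hG, ← hP₀] at e3
  calc ‖Complex.exp (-b) ^ M * Qc - Complex.exp (-(b₀ : ℂ)) ^ M * Q₀‖ * G
      ≤ Real.exp (-(M * b₀)) * (Real.exp (M * r) * Pp - P₀) * G := mul_le_mul_of_nonneg_right key hG0.le
    _ = Real.exp (-(M * b₀)) * Real.exp (M * r) * (Pp * G) - Real.exp (-(M * b₀)) * (P₀ * G) := by ring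
    _ = Real.exp (-(M * b₀)) * Real.exp (M * r) * (Real.exp (b₀ + r) ^ M * Wu S (b₀ + r) x)
        - Real.exp (-(M * b₀)) * (Real.exp b₀ ^ M * Wu S b₀ x) := by rw [e2, e3]
    _ = _ := by
        rw [← Real.exp_nat_mul, ← Real.exp_nat_mul, ← mul_assoc, ← mul_assoc, ← Real.exp_add, ← Real.exp_add,
          ← Real.exp_add]
        have a1 : -((M : ℝ) * b₀) + M * r + M * (b₀ + r) = 2 * r * M := by ring
        have a2 : -((M : ℝ) * b₀) + M * b₀ = 0 := by ring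
        rw [a1, a2, Real.exp_zero, one_mul]

/-! ### sums -/

theorem ZuC_summable_norm (hS : S.Ok) {F : S.L → ℂ} (hF : Gr S fun z => ‖F z‖) (b : ℂ) (α : S.Amb) :
    Summable fun z : S.L => ‖F z * WuC S b ((z : S.Amb) + α)‖ := by
  have hbp : 0 < ‖b‖ + 1 := by positivity
  refine Summable.of_nonneg_of_le (fun _ => norm_nonneg _) (fun z => ?_)
    ((hF.summable hS (‖b‖ + 1) hbp α).mul_left (Real.exp ((‖b‖ + 1 - b.re) * Fintype.card S.E)))
  rw [norm_mul]
  calc ‖F z‖ * ‖WuC S b ((z : S.Amb) + α)‖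
      ≤ ‖F z‖ * (Real.exp ((‖b‖ + 1 - b.re) * Fintype.card S.E) * Wu S (‖b‖ + 1) ((z : S.Amb) + α)) :=
        mul_le_mul_of_nonneg_left (WuC_norm_le b _ (by linarith) _) (norm_nonneg _)
    _ = _ := by ring

theorem ZuC_summable (hS : S.Ok) {F : S.L → ℂ} (hF : Gr S fun z => ‖F z‖) (b : ℂ) (α : S.Amb) :
    Summable fun z : S.L => F z * WuC S b ((z : S.Amb) + α) := (ZuC_summable_norm hS hF b α).of_norm

/-- **complex Poisson majorant** ([E] (3.9)) for lattice sums. -/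
theorem ZuC_norm_le (hS : S.Ok) {F : S.L → ℂ} (hF : Gr S fun z => ‖F z‖) (b : ℂ) (bp : ℝ) (hbp : 0 < bp)
    (h : ‖b‖ ≤ bp) (α : S.Amb) :
    ‖ZuC S b α F‖ ≤ Real.exp ((bp - b.re) * Fintype.card S.E) * Zu S bp α fun z => ‖F z‖ := by
  unfold ZuC Zu
  rw [← tsum_mul_left]
  refine (norm_tsum_le_tsum_norm (ZuC_summable_norm hS hF b α)).trans ?_
  refine (ZuC_summable_norm hS hF b α).tsum_le_tsum (fun z => ?_) ((hF.summable hS bp hbp α).mul_left _)
  rw [norm_mul]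
  calc ‖F z‖ * ‖WuC S b ((z : S.Amb) + α)‖
      ≤ ‖F z‖ * (Real.exp ((bp - b.re) * Fintype.card S.E) * Wu S bp ((z : S.Amb) + α)) :=
        mul_le_mul_of_nonneg_left (WuC_norm_le b _ h _) (norm_nonneg _)
    _ = _ := by ring

theorem WuC_differentiable (x : S.Amb) : Differentiable ℂ fun b => WuC S b x := by
  unfold WuC
  refine Differentiable.mul ?_ (differentiable_const _)
  exact Differentiable.fun_finsetProd fun e _ => besC_differentiable _

/-- **finite-volume analyticity** ([E] L2.5, last sentence): the lattice sums are entire functions of the temperature. -/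
theorem ZuC_differentiable (hS : S.Ok) {F : S.L → ℂ} (hF : Gr S fun z => ‖F z‖) (α : S.Amb) :
    Differentiable ℂ fun b => ZuC S b α F := by
  intro b
  have hbp : 0 < ‖b‖ + 1 := by positivity
  have h := Complex.differentiableOn_tsum_of_summable_norm
    (u := fun z : S.L => Real.exp (2 * (‖b‖ + 1) * Fintype.card S.E) * (‖F z‖ * Wu S (‖b‖ + 1) ((z : S.Amb) + α)))
    ((hF.summable hS (‖b‖ + 1) hbp α).mul_left _)
    (F := fun (z : S.L) (w : ℂ) => F z * WuC S w ((z : S.Amb) + α)) (U := Metric.ball 0 (‖b‖ + 1))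
    (fun z => ((WuC_differentiable _).const_mul (F z)).differentiableOn) Metric.isOpen_ball (fun z w hw => by
      rw [mem_ball_zero_iff] at hw
      rw [norm_mul]
      have h1 := WuC_norm_le (S := S) w (‖b‖ + 1) hw.le ((z : S.Amb) + α)
      have h2 : Real.exp ((‖b‖ + 1 - w.re) * Fintype.card S.E) ≤ Real.exp (2 * (‖b‖ + 1) * Fintype.card S.E) := by
        apply Real.exp_le_exp.2
        refine mul_le_mul_of_nonneg_right ?_ (Nat.cast_nonneg _)
        have := (abs_le.1 ((Complex.abs_re_le_norm w).trans hw.le)).1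
        linarith
      calc ‖F z‖ * ‖WuC S w ((z : S.Amb) + α)‖
          ≤ ‖F z‖ * (Real.exp (2 * (‖b‖ + 1) * Fintype.card S.E) * Wu S (‖b‖ + 1) ((z : S.Amb) + α)) :=
            mul_le_mul_of_nonneg_left (h1.trans (mul_le_mul_of_nonneg_right h2 (Wu_nonneg S _ hbp.le _)))
              (norm_nonneg _)
        _ = _ := by ring)
  exact (h b (by simp)).differentiableAt (Metric.isOpen_ball.mem_nhds (by simp))

/-- summed form of `WuC_sub_le`. -/
theorem ZuC_sub_le (hS : S.Ok) {F : S.L → ℂ} (C : ℝ) (hF : ∀ z, ‖F z‖ ≤ C) (b : ℂ) (b₀ r : ℝ) (h0 : 0 < b₀)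
    (h : ‖b - b₀‖ ≤ r) (α : S.Amb) :
    ‖ZuC S b α F - ZuC S b₀ α F‖ ≤
      C * (Real.exp (2 * r * Fintype.card S.E) * Zu S (b₀ + r) α (fun _ => 1) - Zu S b₀ α fun _ => 1) := by
  have hr : 0 ≤ r := (norm_nonneg _).trans h
  have hC : 0 ≤ C := (norm_nonneg _).trans (hF 0)
  have hG : Gr S fun z => ‖F z‖ := Gr.bdd C fun z => by rw [abs_of_nonneg (norm_nonneg _)]; exact hF z
  have s1 := (Gr.const (S := S) 1).summable hS (b₀ + r) (by linarith) α
  have s0 := (Gr.const (S := S) 1).summable hS b₀ h0 α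
  have sB : Summable fun z : S.L => C * (Real.exp (2 * r * Fintype.card S.E) * (1 * Wu S (b₀ + r) ((z : S.Amb) + α))
      - 1 * Wu S b₀ ((z : S.Amb) + α)) := ((s1.mul_left _).sub s0).mul_left C
  have hterm : ∀ z : S.L, ‖F z * WuC S b ((z : S.Amb) + α) - F z * WuC S b₀ ((z : S.Amb) + α)‖
      ≤ C * (Real.exp (2 * r * Fintype.card S.E) * (1 * Wu S (b₀ + r) ((z : S.Amb) + α))
        - 1 * Wu S b₀ ((z : S.Amb) + α)) := by
    intro z
    have h1 := WuC_sub_le (S := S) b b₀ r h0.le h ((z : S.Amb) + α)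
    rw [← mul_sub, norm_mul, WuC_ofReal, one_mul, one_mul]
    exact mul_le_mul (hF z) h1 (norm_nonneg _) hC
  have sN : Summable fun z : S.L => ‖F z * WuC S b ((z : S.Amb) + α) - F z * WuC S b₀ ((z : S.Amb) + α)‖ :=
    Summable.of_nonneg_of_le (fun _ => norm_nonneg _) hterm sB
  unfold ZuC Zu
  rw [← (ZuC_summable hS hG b α).tsum_sub (ZuC_summable hS hG b₀ α), ← tsum_mul_left, ← (s1.mul_left _).tsum_sub s0,
    ← tsum_mul_left]
  exact (norm_tsum_le_tsum_norm sN).trans (sN.tsum_le_tsum hterm sB)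

/-- complex observation centres: the Gaussian factor with an imaginary shift. -/
theorem e2_gauss_complex {ι : Type*} [Fintype ι] (x η : ι → ℝ) :
    Complex.exp (-(∑ o, ((x o : ℂ) + Complex.I * (η o : ℂ)) ^ 2) / 2)
      = ((Real.exp (-(∑ o, x o ^ 2) / 2) : ℝ) : ℂ) * Complex.exp (-(Complex.I * ((∑ o, η o * x o : ℝ) : ℂ)))
        * ((Real.exp ((∑ o, η o ^ 2) / 2) : ℝ) : ℂ) := by
  rw [Complex.ofReal_exp, Complex.ofReal_exp, ← Complex.exp_add, ← Complex.exp_add]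
  congr 1
  push_cast
  have : ∀ o, ((x o : ℂ) + Complex.I * (η o : ℂ)) ^ 2
      = (x o : ℂ) ^ 2 + 2 * (Complex.I * ((η o : ℂ) * (x o : ℂ))) - (η o : ℂ) ^ 2 := by
    intro o
    have hI : Complex.I ^ 2 = -1 := Complex.I_sq
    calc ((x o : ℂ) + Complex.I * (η o : ℂ)) ^ 2
        = (x o : ℂ) ^ 2 + 2 * (Complex.I * ((η o : ℂ) * (x o : ℂ))) + Complex.I ^ 2 * (η o : ℂ) ^ 2 := by ring
      _ = _ := by rw [hI]; ring
  simp only [this, Finset.sum_add_distrib, Finset.sum_sub_distrib, ← Finset.mul_sum]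
  ring

/-- Stores the on-demand equation lemmas of the definitions above in THIS module (rule 6 hygiene). -/
theorem e2_cplx_forced : True := by
  have := @WuC.eq_1
  have := @ZuC.eq_1
  trivial

end

end PartCplx

/-!
# ROW 285, package BP-E2 (helper148), file 11: FINITE-VOLUME PARAMETER CONTINUITY ([E] L2.5).

`S` proper, `M = |E|`, `b₀ > 0` real, `b` complex, `r = |b - b₀|`, `w_t(α) = Zu S t α 1`.
* `e2_w0_antitone` : `t ↦ w_t(0)` decreases on `(0,∞)`                       (`∂_t w_t(0) = ∑_e (w_t(δ_e) - w_t(0)) ≤ 0`)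
* `e2_growth` : `e^{rM} w_{b₀+r}(α) ≤ (e^{rM} - 1) w_{b₀}(0) + w_{b₀}(α)`       (= [E] L2.4 summed against `r^ℓ/ℓ!`; here by a differential inequality)
* `e2_tv_sum` : `∑_z |WuC b (z+α) - Wu b₀ (z+α)| ≤ (e^{2rM} - 1) w_{b₀}(0)`      (**[E] (2.9)**, explicit constant, every real datum `α`)
* `e2_tv` : `|ZuC b α F - ZuC b₀ α F| ≤ (e^{2rM} - 1) sup|F| w_{b₀}(0)`
* `e2_normalizer_ne_zero` : `ZuC b 0 1 ≠ 0` when `e^{2rM} < 2`.
-/

section PartTV

open Rsd Filter Topology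

noncomputable section

variable {S : LSys}

theorem e2_dZu_one_le (hS : S.Ok) (t : ℝ) (ht : 0 < t) (α : S.Amb) (c : ℝ) (hc : Zu S t 0 (fun _ => 1) ≤ c) :
    dZu S t α (fun _ => 1) ≤ Fintype.card S.E * c - Fintype.card S.E * Zu S t α fun _ => 1 := by
  unfold dZu
  have h : ∀ e : S.E, (Zu S t (α + dl S e) (fun _ => 1) + Zu S t (α - dl S e) fun _ => 1) / 2 - Zu S t α (fun _ => 1)
      ≤ c - Zu S t α fun _ => 1 := by
    intro e
    have h1 := (e2_w_le hS t ht (α + dl S e)).trans hc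
    have h2 := (e2_w_le hS t ht (α - dl S e)).trans hc
    linarith
  calc _ ≤ ∑ _e : S.E, (c - Zu S t α fun _ => 1) := Finset.sum_le_sum fun e _ => h e
    _ = _ := by simp

theorem e2_w0_antitone (hS : S.Ok) : AntitoneOn (fun t => Zu S t 0 fun _ => 1) (Set.Ioi 0) := by
  have hd : ∀ t ∈ Set.Ioi (0 : ℝ), HasDerivAt (fun t => Zu S t 0 fun _ => 1) (dZu S t 0 fun _ => 1) t :=
    fun t ht => e2_Zu_hasDerivAt' hS (Gr.const 1) 0 t ht
  refine antitoneOn_of_deriv_nonpos (convex_Ioi 0) (fun t ht => (hd t ht).continuousAt.continuousWithinAt) ?_ ?_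
  · rw [interior_Ioi]
    exact fun t ht => (hd t ht).differentiableAt.differentiableWithinAt
  · rw [interior_Ioi]
    intro t ht
    rw [(hd t ht).deriv]
    have := e2_dZu_one_le hS t ht 0 _ le_rfl
    linarith

/-- **growth of the partition sums in the temperature.** -/
theorem e2_growth (hS : S.Ok) (b₀ r : ℝ) (h0 : 0 < b₀) (hr : 0 ≤ r) (α : S.Amb) :
    Real.exp (r * Fintype.card S.E) * Zu S (b₀ + r) α (fun _ => 1)
      ≤ (Real.exp (r * Fintype.card S.E) - 1) * Zu S b₀ 0 (fun _ => 1) + Zu S b₀ α fun _ => 1 := by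
  set M : ℝ := (Fintype.card S.E : ℝ) with hM
  set c := Zu S b₀ 0 fun _ => 1 with hc
  have hd : ∀ s ∈ Set.Ici (0 : ℝ), HasDerivAt (fun s => Real.exp (s * M) * (Zu S (b₀ + s) α (fun _ => 1) - c))
      (Real.exp (s * M) * M * (Zu S (b₀ + s) α (fun _ => 1) - c)
        + Real.exp (s * M) * dZu S (b₀ + s) α fun _ => 1) s := by
    intro s hs
    have hs0 : 0 < b₀ + s := by
      have : (0 : ℝ) ≤ s := hs
      linarith
    have h1 : HasDerivAt (fun s : ℝ => Real.exp (s * M)) (Real.exp (s * M) * M) s := by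
      have := ((hasDerivAt_id s).mul_const M).exp
      simpa using this
    have h2 : HasDerivAt (fun s => Zu S (b₀ + s) α fun _ => 1) (dZu S (b₀ + s) α fun _ => 1) s :=
      (e2_Zu_hasDerivAt' hS (Gr.const 1) α (b₀ + s) hs0).comp_const_add b₀ s
    exact h1.mul (h2.sub_const c)
  have hanti : AntitoneOn (fun s => Real.exp (s * M) * (Zu S (b₀ + s) α (fun _ => 1) - c)) (Set.Ici 0) := by
    refine antitoneOn_of_deriv_nonpos (convex_Ici 0) (fun s hs => (hd s hs).continuousAt.continuousWithinAt) ?_ ?_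
    · rw [interior_Ici]
      exact fun s hs => (hd s (Set.mem_Ici.2 (le_of_lt (Set.mem_Ioi.1 hs)))).differentiableAt.differentiableWithinAt
    · rw [interior_Ici]
      intro s hs
      have hs' : (0 : ℝ) < s := hs
      rw [(hd s (Set.mem_Ici.2 hs'.le)).deriv]
      have hs0 : 0 < b₀ + s := by linarith
      have hle : Zu S (b₀ + s) 0 (fun _ => 1) ≤ c := e2_w0_antitone hS h0 hs0 (by linarith)
      have h3 := e2_dZu_one_le hS (b₀ + s) hs0 α c hle
      have h4 : Real.exp (s * M) * M * (Zu S (b₀ + s) α (fun _ => 1) - c)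
          + Real.exp (s * M) * dZu S (b₀ + s) α (fun _ => 1)
          = Real.exp (s * M) * (M * (Zu S (b₀ + s) α (fun _ => 1) - c) + dZu S (b₀ + s) α fun _ => 1) := by ring
      rw [h4]
      refine mul_nonpos_of_nonneg_of_nonpos (Real.exp_pos _).le ?_
      linarith
  have h := hanti (Set.mem_Ici.2 le_rfl) (Set.mem_Ici.2 hr) hr
  simp only [zero_mul, Real.exp_zero, one_mul, add_zero] at h
  linarith

theorem e2_tv_aux (hS : S.Ok) (b₀ r : ℝ) (h0 : 0 < b₀) (hr : 0 ≤ r) (α : S.Amb) :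
    Real.exp (2 * r * Fintype.card S.E) * Zu S (b₀ + r) α (fun _ => 1) - Zu S b₀ α (fun _ => 1)
      ≤ (Real.exp (2 * r * Fintype.card S.E) - 1) * Zu S b₀ 0 fun _ => 1 := by
  have h1 := e2_growth hS b₀ r h0 hr α
  have h2 := e2_w_le hS b₀ h0 α
  set M : ℝ := (Fintype.card S.E : ℝ)
  have e : Real.exp (2 * r * M) = Real.exp (r * M) * Real.exp (r * M) := by
    rw [← Real.exp_add]
    congr 1
    ring
  have hE : 1 ≤ Real.exp (r * M) := Real.one_le_exp (by positivity)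
  rw [e]
  set E := Real.exp (r * M)
  set wp := Zu S (b₀ + r) α fun _ => 1
  set w0 := Zu S b₀ α fun _ => 1
  set c := Zu S b₀ 0 fun _ => 1
  have h3 : E * (E * wp) ≤ E * ((E - 1) * c + w0) := mul_le_mul_of_nonneg_left h1 (by linarith)
  have h4 : (E - 1) * w0 ≤ (E - 1) * c := mul_le_mul_of_nonneg_left h2 (by linarith)
  nlinarith

/-- **[E] (2.9)**: total variation distance of the weights on a translate of the lattice. -/
theorem e2_tv_sum (hS : S.Ok) (b : ℂ) (b₀ : ℝ) (h0 : 0 < b₀) (α : S.Amb) :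
    Summable (fun z : S.L => ‖WuC S b ((z : S.Amb) + α) - (Wu S b₀ ((z : S.Amb) + α) : ℂ)‖) ∧
    ∑' z : S.L, ‖WuC S b ((z : S.Amb) + α) - (Wu S b₀ ((z : S.Amb) + α) : ℂ)‖
      ≤ (Real.exp (2 * ‖b - b₀‖ * Fintype.card S.E) - 1) * Zu S b₀ 0 fun _ => 1 := by
  set r := ‖b - b₀‖ with hr
  have hr0 : 0 ≤ r := norm_nonneg _
  have s1 := (Gr.const (S := S) 1).summable hS (b₀ + r) (by linarith) α
  have s0 := (Gr.const (S := S) 1).summable hS b₀ h0 α
  have sB : Summable fun z : S.L => Real.exp (2 * r * Fintype.card S.E) * (1 * Wu S (b₀ + r) ((z : S.Amb) + α))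
      - 1 * Wu S b₀ ((z : S.Amb) + α) := (s1.mul_left _).sub s0
  have hterm : ∀ z : S.L, ‖WuC S b ((z : S.Amb) + α) - (Wu S b₀ ((z : S.Amb) + α) : ℂ)‖
      ≤ Real.exp (2 * r * Fintype.card S.E) * (1 * Wu S (b₀ + r) ((z : S.Amb) + α))
        - 1 * Wu S b₀ ((z : S.Amb) + α) := by
    intro z
    rw [one_mul, one_mul]
    exact WuC_sub_le (S := S) b b₀ r h0.le le_rfl ((z : S.Amb) + α)
  have sN := Summable.of_nonneg_of_le (fun _ => norm_nonneg _) hterm sB
  refine ⟨sN, (sN.tsum_le_tsum hterm sB).trans ?_⟩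
  rw [(s1.mul_left _).tsum_sub s0, tsum_mul_left]
  exact e2_tv_aux hS b₀ r h0 hr0 α

/-- **[E] L2.5**: parameter continuity of lattice sums with a bounded complex integrand. -/
theorem e2_tv (hS : S.Ok) {F : S.L → ℂ} (C : ℝ) (hF : ∀ z, ‖F z‖ ≤ C) (b : ℂ) (b₀ : ℝ) (h0 : 0 < b₀) (α : S.Amb) :
    ‖ZuC S b α F - ZuC S b₀ α F‖
      ≤ (Real.exp (2 * ‖b - b₀‖ * Fintype.card S.E) - 1) * C * Zu S b₀ 0 fun _ => 1 := by
  have hC : 0 ≤ C := (norm_nonneg _).trans (hF 0)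
  have h := ZuC_sub_le hS C hF b b₀ ‖b - b₀‖ h0 le_rfl α
  refine h.trans ?_
  have := mul_le_mul_of_nonneg_left (e2_tv_aux hS b₀ ‖b - b₀‖ h0 (norm_nonneg _) α) hC
  linarith

/-- the centred normaliser does not vanish on a disk of radius `~ 1/M` ([E] L2.5). -/
theorem e2_normalizer_ne_zero (hS : S.Ok) (b : ℂ) (b₀ : ℝ) (h0 : 0 < b₀)
    (h : Real.exp (2 * ‖b - b₀‖ * Fintype.card S.E) < 2) : ZuC S b 0 (fun _ => 1) ≠ 0 := by
  intro hz
  have h1 := e2_tv hS (F := fun _ => (1 : ℂ)) 1 (fun _ => by simp) b b₀ h0 0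
  have h2 : ZuC S b₀ 0 (fun _ => (1 : ℂ)) = ((Zu S b₀ 0 fun _ => 1 : ℝ) : ℂ) := by
    have := ZuC_ofReal (S := S) b₀ 0 fun _ => 1
    simpa using this
  have hw := Zu_one_pos hS b₀ h0 (0 : S.Amb)
  rw [hz, h2, zero_sub, norm_neg, Complex.norm_real, Real.norm_eq_abs, abs_of_pos hw, mul_one] at h1
  nlinarith

end

end PartTV

/-!
# ROW 285, package BP-E2 (helper148), file 12: THE SCORE ([E] L2.4 and its use in L3.4) in shift language.

In the augmented Poisson picture `∂_t` inserts the score `N/t - M`; removing one unit = shifting the datum by `± δ_e`.  No Poisson variables here: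
* `e2_turan` : `p(n-1) p(n+1) ≤ p(n)²`, all `t > 0`, `n ∈ ℤ`  (from `BC1.bc1_amU`);
* `e2_rev_turan_add/sub` : `p(k±1)² ≤ p(k) (p(k±2) + (2/t) p(k±1))`     (`⟺ E[U | k]² ≤ E[U² | k]`; here from Turan + recurrence);
* `e2_Wu_sq_add/sub` : `Wu (x ± δ_e)² ≤ Wu x · (Wu (x ± 2δ_e) + (2/t) Wu (x ± δ_e))`;
* `e2_shift_cs_add/sub` : `(Zu t (α ± δ_e) |F|)² ≤ Zu t α F² · (w(α ± 2δ_e) + (2/t) w(α ± δ_e)) ≤ Zu t α F² · (1 + 2/t) w(0)`     (second moment of the score);
* `e2_dZu_abs_le` : `|∂_t Zu t α F| ≤ M (1 + √(1 + 2/t)) √(Zu t α F² · w_t(0))`;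
* `Dsh`, `e2_Dsh_iter_le` : factorial insertions, `(D^ℓ w_t)(α) ≤ M^ℓ w_t(0)`  ([E] (2.8): `E (N)_ℓ = t^ℓ D^ℓ w / w`).
-/

section PartScore

open Rsd Filter Topology

noncomputable section

/-! ### Turan -/

theorem e2_turan_nat (b : ℝ) (hb0 : 0 < b) (n : ℕ) :
    bes b ((n : ℤ) - 1) * bes b ((n : ℤ) + 1) ≤ bes b (n : ℤ) ^ 2 := by
  have hp := bes_pos b hb0
  have hU := BC1.bc1_amU b hb0 n
  unfold BC1.amU at hU
  push_cast at hU
  have hrec := BC1.bc1_bes_rec b hb0 (n : ℤ)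
  set A := bes b (n : ℤ) with hA
  set B := bes b ((n : ℤ) + 1) with hB
  have A0 : 0 < A := hp _
  have B0 : 0 < B := hp _
  have hn : (0 : ℝ) ≤ n := Nat.cast_nonneg n
  have e : bes b ((n : ℤ) - 1) = B + 2 * n / b * A := by
    push_cast at hrec
    linarith
  rw [e]
  have r2 := BC1.bc1_amR_sq b n
  have r0 := BC1.bc1_amR_ge b n
  set r := BC1.amR b n
  have key : b ^ 2 * ((B + 2 * n / b * A) * B) = (b * B) ^ 2 + 2 * n * A * (b * B) := by
    field_simp
  have hb2 : 0 < b ^ 2 := by positivity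
  have y0 : 0 ≤ b * B := by positivity
  have m1 : (b * B) ^ 2 + 2 * n * A * (b * B) ≤ ((r - n) * A) ^ 2 + 2 * n * A * ((r - n) * A) := by
    have q1 : (b * B) ^ 2 ≤ ((r - n) * A) ^ 2 := pow_le_pow_left₀ y0 hU 2
    have q2 : 2 * n * A * (b * B) ≤ 2 * n * A * ((r - n) * A) :=
      mul_le_mul_of_nonneg_left hU (by positivity)
    linarith
  have m2 : ((r - n) * A) ^ 2 + 2 * n * A * ((r - n) * A) = b ^ 2 * A ^ 2 := by
    have : (r - n) ^ 2 + 2 * n * (r - n) = b ^ 2 := by nlinarith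
    calc _ = A ^ 2 * ((r - n) ^ 2 + 2 * n * (r - n)) := by ring
      _ = _ := by rw [this]; ring
  have : b ^ 2 * ((B + 2 * n / b * A) * B) ≤ b ^ 2 * A ^ 2 := by
    rw [key]; linarith
  exact le_of_mul_le_mul_left this hb2

/-- Turan inequality (log-concavity in the order), all temperatures. -/
theorem e2_turan (b : ℝ) (hb : 0 < b) (n : ℤ) : bes b (n - 1) * bes b (n + 1) ≤ bes b n ^ 2 := by
  rcases le_total 0 n with h | h
  · obtain ⟨k, rfl⟩ := Int.eq_ofNat_of_zero_le h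
    exact e2_turan_nat b hb k
  · obtain ⟨k, hk⟩ := Int.eq_ofNat_of_zero_le (neg_nonneg.2 h)
    have h1 := e2_turan_nat b hb k
    have e1 : n - 1 = -((k : ℤ) + 1) := by omega
    have e2 : n + 1 = -((k : ℤ) - 1) := by omega
    have e3 : n = -(k : ℤ) := by omega
    rw [e1, e2, e3, bes_neg, bes_neg, bes_neg, mul_comm]
    exact h1

theorem e2_rev_turan_sub (t : ℝ) (ht : 0 < t) (k : ℤ) :
    bes t (k - 1) ^ 2 ≤ bes t k * (bes t (k - 2) + 2 / t * bes t (k - 1)) := by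
  have r1 := BC1.bc1_bes_rec t ht (k - 1)
  have r2 := BC1.bc1_bes_rec t ht k
  have tu := e2_turan t ht k
  have e1 : k - 1 - 1 = k - 2 := by ring
  have e2 : k - 1 + 1 = k := by ring
  rw [e1, e2] at r1
  push_cast at r1
  -- p(k-2) = p(k) + 2(k-1)/t p(k-1);  p(k-1) - p(k+1) = 2k/t p(k)
  have h1 : bes t (k - 2) + 2 / t * bes t (k - 1) = bes t k + 2 * k / t * bes t (k - 1) := by
    have : bes t (k - 2) = bes t k + 2 * ((k : ℝ) - 1) / t * bes t (k - 1) := by linarith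
    rw [this]
    ring
  rw [h1]
  have h2 : bes t k * (2 * k / t * bes t (k - 1)) = bes t (k - 1) * (bes t (k - 1) - bes t (k + 1)) := by
    rw [r2]
    ring
  nlinarith

theorem e2_rev_turan_add (t : ℝ) (ht : 0 < t) (k : ℤ) :
    bes t (k + 1) ^ 2 ≤ bes t k * (bes t (k + 2) + 2 / t * bes t (k + 1)) := by
  have h := e2_rev_turan_sub t ht (-k)
  have e1 : -k - 1 = -(k + 1) := by ring
  have e2 : -k - 2 = -(k + 2) := by ring
  rwa [e1, e2, bes_neg, bes_neg, bes_neg] at h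

theorem e2_rev_turan (t : ℝ) (ht : 0 < t) (k σ : ℤ) (hσ : σ = 1 ∨ σ = -1) :
    bes t (k + σ) ^ 2 ≤ bes t k * (bes t (k + 2 * σ) + 2 / t * bes t (k + σ)) := by
  rcases hσ with rfl | rfl
  · simpa using e2_rev_turan_add t ht k
  · simpa [sub_eq_add_neg] using e2_rev_turan_sub t ht k

/-! ### the weight -/

variable {S : LSys}

theorem e2_Wu_sq (t : ℝ) (ht : 0 < t) (x : S.Amb) (e : S.E) (σ : ℤ) (hσ : σ = 1 ∨ σ = -1) :
    Wu S t (x + σ • dl S e) ^ 2 ≤ Wu S t x * (Wu S t (x + (2 * σ) • dl S e) + 2 / t * Wu S t (x + σ • dl S e)) := by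
  classical
  rw [e2_Wu_shift, e2_Wu_shift, e2_Wu_self S t x e]
  set R := ∏ e' ∈ Finset.univ.erase e, bes t (x.1 e')
  set G := Real.exp (-(∑ o, x.2 o ^ 2) / 2)
  have h := e2_rev_turan t ht (x.1 e) σ hσ
  have h2 : 0 ≤ (R * G) ^ 2 := sq_nonneg _
  calc (R * bes t (x.1 e + σ) * G) ^ 2 = (R * G) ^ 2 * bes t (x.1 e + σ) ^ 2 := by ring
    _ ≤ (R * G) ^ 2 * (bes t (x.1 e) * (bes t (x.1 e + 2 * σ) + 2 / t * bes t (x.1 e + σ))) :=
        mul_le_mul_of_nonneg_left h h2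
    _ = _ := by ring

/-- **second moment of the score**: a unit shift of the datum costs a bounded factor in `L²`. -/
theorem e2_shift_cs (hS : S.Ok) {F : S.L → ℝ} (hF : Gr S F) (t : ℝ) (ht : 0 < t) (α : S.Amb) (e : S.E) (σ : ℤ)
    (hσ : σ = 1 ∨ σ = -1) :
    Zu S t (α + σ • dl S e) (fun z => |F z|) ^ 2 ≤ Zu S t α (fun z => F z ^ 2) *
      (Zu S t (α + (2 * σ) • dl S e) (fun _ => 1) + 2 / t * Zu S t (α + σ • dl S e) fun _ => 1) := by
  set δ := σ • dl S e with hδ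
  set δ2 := (2 * σ) • dl S e with hδ2
  have hW : ∀ z : S.L, 0 < Wu S t ((z : S.Amb) + α) := fun z => Wu_pos S t ht _
  have s1 := (Gr.const (S := S) 1).summable hS t ht (α + δ)
  have s2 := (Gr.const (S := S) 1).summable hS t ht (α + δ2)
  have hBle : ∀ z : S.L, Wu S t ((z : S.Amb) + α) * ‖((Wu S t ((z : S.Amb) + (α + δ)) / Wu S t ((z : S.Amb) + α) : ℝ) : ℂ)‖ ^ 2
      ≤ 1 * Wu S t ((z : S.Amb) + (α + δ2)) + 2 / t * (1 * Wu S t ((z : S.Amb) + (α + δ))) := by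
    intro z
    have h := e2_Wu_sq t ht ((z : S.Amb) + α) e σ hσ
    rw [← hδ, ← hδ2, add_assoc, add_assoc] at h
    rw [Complex.norm_real, Real.norm_eq_abs, sq_abs, div_pow, one_mul, one_mul]
    have e1 : Wu S t ((z : S.Amb) + α) * (Wu S t ((z : S.Amb) + (α + δ)) ^ 2 / Wu S t ((z : S.Amb) + α) ^ 2)
        = Wu S t ((z : S.Amb) + (α + δ)) ^ 2 / Wu S t ((z : S.Amb) + α) := by
      have := (hW z).ne'
      field_simp
    rw [e1, div_le_iff₀ (hW z)]
    linarith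
  have sB : Summable fun z : S.L =>
      Wu S t ((z : S.Amb) + α) * ‖((Wu S t ((z : S.Amb) + (α + δ)) / Wu S t ((z : S.Amb) + α) : ℝ) : ℂ)‖ ^ 2 :=
    Summable.of_nonneg_of_le (fun z => mul_nonneg (hW z).le (sq_nonneg _)) hBle (s2.add (s1.mul_left _))
  have hP : HasSum (fun z : S.L => ((Wu S t ((z : S.Amb) + α) : ℝ) : ℂ) * ((|F z| : ℝ) : ℂ)
      * ((Wu S t ((z : S.Amb) + (α + δ)) / Wu S t ((z : S.Amb) + α) : ℝ) : ℂ))
      ((Zu S t (α + δ) (fun z => |F z|) : ℝ) : ℂ) := by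
    have h1 := Complex.hasSum_ofReal.2 (hF.abs.summable hS t ht (α + δ)).hasSum
    refine ms_hasSum_congr h1 fun z => ?_
    rw [← Complex.ofReal_mul, ← Complex.ofReal_mul]
    congr 1
    have := (hW z).ne'
    field_simp
  have hA : HasSum (fun z : S.L => Wu S t ((z : S.Amb) + α) * ‖((|F z| : ℝ) : ℂ)‖ ^ 2)
      (Zu S t α fun z => F z ^ 2) := by
    refine ms_hasSum_congr ((hF.pow 2).summable hS t ht α).hasSum fun z => ?_
    rw [Complex.norm_real, Real.norm_eq_abs, abs_abs, sq_abs]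
    ring
  have hcs := ms_cauchy_schwarz (fun z : S.L => Wu S t ((z : S.Amb) + α)) (fun z => (hW z).le) _ _ hP hA sB.hasSum
  rw [Complex.norm_real, Real.norm_eq_abs, sq_abs] at hcs
  refine hcs.trans (mul_le_mul_of_nonneg_left ?_ (Zu_nonneg t ht.le α fun z => sq_nonneg _))
  have h9 := sB.tsum_le_tsum hBle (s2.add (s1.mul_left _))
  have e9 : ∑' z : S.L, (1 * Wu S t ((z : S.Amb) + (α + δ2)) + 2 / t * (1 * Wu S t ((z : S.Amb) + (α + δ))))
      = Zu S t (α + δ2) (fun _ => 1) + 2 / t * Zu S t (α + δ) fun _ => 1 := by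
    rw [s2.tsum_add (s1.mul_left _)]
    congr 1
    exact tsum_mul_left
  rw [e9] at h9
  exact h9

theorem e2_shift_cs' (hS : S.Ok) {F : S.L → ℝ} (hF : Gr S F) (t : ℝ) (ht : 0 < t) (α : S.Amb) (e : S.E) (σ : ℤ)
    (hσ : σ = 1 ∨ σ = -1) :
    Zu S t (α + σ • dl S e) (fun z => |F z|) ^ 2
      ≤ Zu S t α (fun z => F z ^ 2) * ((1 + 2 / t) * Zu S t 0 fun _ => 1) := by
  refine (e2_shift_cs hS hF t ht α e σ hσ).trans
    (mul_le_mul_of_nonneg_left ?_ (Zu_nonneg t ht.le α fun z => sq_nonneg _))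
  have h1 := e2_w_le hS t ht (α + (2 * σ) • dl S e)
  have h2 := e2_w_le hS t ht (α + σ • dl S e)
  have h3 : 2 / t * Zu S t (α + σ • dl S e) (fun _ => 1) ≤ 2 / t * Zu S t 0 fun _ => 1 :=
    mul_le_mul_of_nonneg_left h2 (by positivity)
  linarith

/-- Cauchy-Schwarz without a shift -/
theorem e2_Zu_cs (hS : S.Ok) {F : S.L → ℝ} (hF : Gr S F) (t : ℝ) (ht : 0 < t) (α : S.Amb) :
    Zu S t α (fun z => |F z|) ^ 2 ≤ Zu S t α (fun z => F z ^ 2) * Zu S t 0 fun _ => 1 := by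
  have hW : ∀ z : S.L, 0 < Wu S t ((z : S.Amb) + α) := fun z => Wu_pos S t ht _
  have hP : HasSum (fun z : S.L => ((Wu S t ((z : S.Amb) + α) : ℝ) : ℂ) * ((|F z| : ℝ) : ℂ) * ((1 : ℝ) : ℂ))
      ((Zu S t α (fun z => |F z|) : ℝ) : ℂ) := by
    have h1 := Complex.hasSum_ofReal.2 (hF.abs.summable hS t ht α).hasSum
    refine ms_hasSum_congr h1 fun z => ?_
    rw [← Complex.ofReal_mul, ← Complex.ofReal_mul]
    congr 1
    ring
  have hA : HasSum (fun z : S.L => Wu S t ((z : S.Amb) + α) * ‖((|F z| : ℝ) : ℂ)‖ ^ 2)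
      (Zu S t α fun z => F z ^ 2) := by
    refine ms_hasSum_congr ((hF.pow 2).summable hS t ht α).hasSum fun z => ?_
    rw [Complex.norm_real, Real.norm_eq_abs, abs_abs, sq_abs]
    ring
  have hB : HasSum (fun z : S.L => Wu S t ((z : S.Amb) + α) * ‖((1 : ℝ) : ℂ)‖ ^ 2) (Zu S t α fun _ => 1) := by
    refine ms_hasSum_congr ((Gr.const (S := S) 1).summable hS t ht α).hasSum fun z => ?_
    simp
  have hcs := ms_cauchy_schwarz (fun z : S.L => Wu S t ((z : S.Amb) + α)) (fun z => (hW z).le) _ _ hP hA hB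
  rw [Complex.norm_real, Real.norm_eq_abs, sq_abs] at hcs
  exact hcs.trans (mul_le_mul_of_nonneg_left (e2_w_le hS t ht α) (Zu_nonneg t ht.le α fun z => sq_nonneg _))

theorem e2_Zu_abs_le (hS : S.Ok) {F : S.L → ℝ} (hF : Gr S F) (t : ℝ) (ht : 0 < t) (α : S.Amb) :
    |Zu S t α F| ≤ Zu S t α fun z => |F z| := by
  rw [abs_le]
  constructor
  · rw [← Zu_neg]
    exact Zu_mono hS hF.abs.neg hF t ht α fun z => neg_abs_le _
  · exact Zu_mono hS hF hF.abs t ht α fun z => le_abs_self _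

/-- **the temperature derivative of a lattice sum is controlled by the `L²` norm of the integrand** ([E] L3.4: score + Hoelder). -/
theorem e2_dZu_abs_le (hS : S.Ok) {F : S.L → ℝ} (hF : Gr S F) (t : ℝ) (ht : 0 < t) (α : S.Amb) :
    |dZu S t α F| ≤ Fintype.card S.E * ((1 + Real.sqrt (1 + 2 / t)) *
      Real.sqrt (Zu S t α (fun z => F z ^ 2) * Zu S t 0 fun _ => 1)) := by
  set A := Zu S t α fun z => F z ^ 2 with hA
  set w := Zu S t 0 fun _ => 1 with hw
  have hA0 : 0 ≤ A := Zu_nonneg t ht.le α fun z => sq_nonneg _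
  have hw0 : 0 < w := Zu_one_pos hS t ht 0
  have hsh : ∀ (e : S.E) (σ : ℤ), (σ = 1 ∨ σ = -1) →
      |Zu S t (α + σ • dl S e) F| ≤ Real.sqrt (1 + 2 / t) * Real.sqrt (A * w) := by
    intro e σ hσ
    refine (e2_Zu_abs_le hS hF t ht _).trans ?_
    rw [← Real.sqrt_mul (by positivity)]
    apply Real.le_sqrt_of_sq_le
    refine (e2_shift_cs' hS hF t ht α e σ hσ).trans (le_of_eq ?_)
    ring
  have h0 : |Zu S t α F| ≤ Real.sqrt (A * w) := by
    refine (e2_Zu_abs_le hS hF t ht _).trans ?_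
    apply Real.le_sqrt_of_sq_le
    exact e2_Zu_cs hS hF t ht α
  unfold dZu
  calc |∑ e, ((Zu S t (α + dl S e) F + Zu S t (α - dl S e) F) / 2 - Zu S t α F)|
      ≤ ∑ e : S.E, |(Zu S t (α + dl S e) F + Zu S t (α - dl S e) F) / 2 - Zu S t α F| :=
        Finset.abs_sum_le_sum_abs _ _
    _ ≤ ∑ _e : S.E, (1 + Real.sqrt (1 + 2 / t)) * Real.sqrt (A * w) := by
        refine Finset.sum_le_sum fun e _ => ?_
        have h1 := hsh e 1 (Or.inl rfl)
        have h2 := hsh e (-1) (Or.inr rfl)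
        rw [one_smul] at h1
        rw [neg_one_smul, ← sub_eq_add_neg] at h2
        rw [abs_le] at h0 h1 h2 ⊢
        constructor <;> nlinarith [h0.1, h0.2, h1.1, h1.2, h2.1, h2.2]
    _ = _ := by simp

/-! ### factorial insertions -/

/-- the insertion operator `D g (α) = ∑_e (g (α + δ_e) + g (α - δ_e)) / 2` -/
def Dsh (S : LSys) (g : S.Amb → ℝ) (α : S.Amb) : ℝ := ∑ e, (g (α + dl S e) + g (α - dl S e)) / 2

theorem e2_Dsh_le (g : S.Amb → ℝ) (c : ℝ) (h : ∀ α, g α ≤ c) (α : S.Amb) : Dsh S g α ≤ Fintype.card S.E * c := by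
  unfold Dsh
  calc _ ≤ ∑ _e : S.E, c := Finset.sum_le_sum fun e _ => by linarith [h (α + dl S e), h (α - dl S e)]
    _ = _ := by simp

/-- **factorial insertions** ([E] L2.4). -/
theorem e2_Dsh_iter_le (hS : S.Ok) (t : ℝ) (ht : 0 < t) (l : ℕ) (α : S.Amb) :
    (Dsh S)^[l] (fun α => Zu S t α fun _ => 1) α ≤ (Fintype.card S.E : ℝ) ^ l * Zu S t 0 fun _ => 1 := by
  induction l generalizing α with
  | zero => simpa using e2_w_le hS t ht α
  | succ l ih =>
    rw [Function.iterate_succ_apply']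
    refine (e2_Dsh_le _ _ ih α).trans (le_of_eq ?_)
    ring

/-- `∂_t (e^{tM} Zu t α F) = e^{tM} D (Zu t · F) (α)`. -/
theorem e2_dZu_eq_Dsh (t : ℝ) (α : S.Amb) (F : S.L → ℝ) :
    dZu S t α F = Dsh S (fun α => Zu S t α F) α - Fintype.card S.E * Zu S t α F := by
  unfold dZu Dsh
  rw [Finset.sum_sub_distrib]
  simp

/-- Stores the on-demand equation lemmas of the definitions above in THIS module (rule 6 hygiene). -/
theorem e2_score_forced : True := by
  have := @Dsh.eq_1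
  trivial

end

end PartScore

end Claimed.Agent.R285.E2
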