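import Claimed.Agent.R285.E2.Real

/-!
# ROW 285, package BP-E2 (helper148), TORUS (merged from Torus, Tor; file budget).
-/

set_option autoImplicit false

namespace Claimed.Agent.R285.E2

/-!
# ROW 285, package BP-E2 (helper148), file 6: the first cosine on the torus.   Paper-free, elementary.   LEAVES L-E2-T1 .. T4.

`torus n`: `V = ZMod n × ZMod n`, `E = V × Bool`, `src e = e.1`, `tgt e = if e.2 then (e.1.1 + 1, e.1.2) else (e.1.1, e.1.2 + 1)`.
`cs1 n x = cos (2π x.val / n)`, `θ = 2π/n`, `λ = 2 - 2 cos θ = 4 sin² (π/n)`.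
The test of `torVar` is `X h = ∑_v f v · h v`, `f v = n⁻² cs1 n v.1`; `A f = λ f`; the optimal flow is `∇ (f/λ)`; `torω = 2π ∇ (f / λ)`.
Several leaves share this file: edit only your own theorems (helpers directly above them), splice on a fresh pull.
-/

section PartTorus

open Rsd Filter Topology

noncomputable section

/-- the first cosine on `ZMod n` -/
def cs1 (n : ℕ) (x : ZMod n) : ℝ := Real.cos (2 * Real.pi * (x.val : ℝ) / n)

/-- L-E2-T1.  `coord h = 0` gives `h (tgt e) = h (src e)` for all `e` (`congrFun (congrArg Prod.fst _) e`, `sub_eq_zero`); take `e = ((x,y),true)`, `((x,y),false)`: `h (x+1,y) = h (x,y) = h (x,y+1)`.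
By induction on `k : ℕ`: `h ((k : ZMod n), y) = h (0, y)`, `h (0, (k : ZMod n)) = h (0,0)`; `x = ((x.val : ℕ) : ZMod n)` (`ZMod.natCast_zmod_val`).  `h (0,0) = 0` by the pin. -/
theorem e2_torus_proper (n : ℕ) [NeZero n] :
    (HLaw.plain (torus n) {((0 : ZMod n), (0 : ZMod n))}).Proper := by
  intro h hh h0
  have hpin : h ((0 : ZMod n), (0 : ZMod n)) = 0 := hh _ rfl
  have hgr : ∀ e : (ZMod n × ZMod n) × Bool, h ((torus n).tgt e) - h ((torus n).src e) = 0 := by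
    intro e
    exact congrFun (congrArg Prod.fst h0) e
  have hx : ∀ x y : ZMod n, h (x + 1, y) = h (x, y) := by
    intro x y
    have := hgr ((x, y), true)
    simp only [torus, if_true] at this
    linarith
  have hy : ∀ x y : ZMod n, h (x, y + 1) = h (x, y) := by
    intro x y
    have := hgr ((x, y), false)
    simp only [torus] at this
    simpa [sub_eq_zero] using this
  have hx' : ∀ (k : ℕ) (y : ZMod n), h ((k : ZMod n), y) = h (0, y) := by
    intro k y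
    induction k with
    | zero => simp
    | succ k ih => rw [Nat.cast_succ, hx, ih]
  have hy' : ∀ (k : ℕ), h ((0 : ZMod n), (k : ZMod n)) = h (0, 0) := by
    intro k
    induction k with
    | zero => simp
    | succ k ih => rw [Nat.cast_succ, hy, ih]
  funext v
  obtain ⟨x, y⟩ := v
  have := hx' x.val y
  rw [ZMod.natCast_zmod_val] at this
  have h2 := hy' y.val
  rw [ZMod.natCast_zmod_val] at h2
  rw [this, h2, hpin]
  rfl

/-- L-E2-T2.  `ZMod.val_natCast : ((m : ℕ) : ZMod n).val = m % n`; `Nat.div_add_mod m n`; `2π m / n = 2π (m % n)/n + (m / n) · 2π` (`field_simp`, `n ≠ 0`), `Real.cos_add_nat_mul_two_pi`. -/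
theorem e2_cs1_natCast (n : ℕ) [NeZero n] (m : ℕ) :
    cs1 n (m : ZMod n) = Real.cos (2 * Real.pi * (m : ℝ) / n) := by
  have hn : (n : ℝ) ≠ 0 := Nat.cast_ne_zero.2 (NeZero.ne n)
  unfold cs1
  rw [ZMod.val_natCast]
  have h2 : (m : ℝ) = ((m % n : ℕ) : ℝ) + (n : ℝ) * ((m / n : ℕ) : ℝ) := by
    have := Nat.mod_add_div m n
    exact_mod_cast this.symm
  obtain ⟨u, hu⟩ : ∃ u : ℝ, u = ((m % n : ℕ) : ℝ) := ⟨_, rfl⟩
  have h4 : 2 * Real.pi * (m : ℝ) / n = 2 * Real.pi * u / n + ((m / n : ℕ) : ℝ) * (2 * Real.pi) := by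
    obtain ⟨v, hv⟩ : ∃ v : ℝ, v = ((m / n : ℕ) : ℝ) := ⟨_, rfl⟩
    rw [← hu, ← hv] at h2
    rw [← hv, h2]
    field_simp
  rw [← hu, h4, Real.cos_add_nat_mul_two_pi]

/-- L-E2-T2.  Write `x = ((x.val : ℕ) : ZMod n)`, `x + 1 = ((x.val + 1 : ℕ) : ZMod n)`, `x + 1 + 1 = ((x.val + 2 : ℕ) : ZMod n)` (`push_cast`, `ZMod.natCast_zmod_val`), `e2_cs1_natCast`;
`cos (a + θ) + cos (a - θ) = 2 cos θ cos a` at `a = θ (k+1)` (`Real.cos_add`, `Real.cos_sub`). -/
theorem e2_cs1_three (n : ℕ) [NeZero n] (x : ZMod n) :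
    cs1 n (x + 1 + 1) + cs1 n x = 2 * Real.cos (2 * Real.pi / n) * cs1 n (x + 1) := by
  have hn : (n : ℝ) ≠ 0 := Nat.cast_ne_zero.2 (NeZero.ne n)
  have h0 := e2_cs1_natCast n x.val
  have h1 := e2_cs1_natCast n (x.val + 1)
  have h2 := e2_cs1_natCast n (x.val + 2)
  push_cast at h0 h1 h2
  rw [ZMod.natCast_zmod_val] at h0 h1 h2
  have e : x + 1 + 1 = x + 2 := by ring
  rw [e, h0, h1, h2]
  have e1 : 2 * Real.pi * ((x.val : ℝ) + 2) / n =
      2 * Real.pi * ((x.val : ℝ) + 1) / n + 2 * Real.pi / n := by field_simp; ring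
  have e2 : 2 * Real.pi * (x.val : ℝ) / n =
      2 * Real.pi * ((x.val : ℝ) + 1) / n - 2 * Real.pi / n := by field_simp; ring
  rw [e1, e2, Real.cos_add, Real.cos_sub]
  ring

/-- L-E2-T2.  **Summation by parts.**  Expand: `∑ c(x+1) h(x+1) = ∑ c h` and `∑ c(x+1) h(x) = ∑ c(x+1+1) h(x+1)` (`Equiv.sum_comp (Equiv.addRight 1)`); so
LHS `= 2 ∑ c h - ∑ (c(x) + c(x+1+1)) h(x+1) = 2 ∑ c h - 2 cos θ ∑ c(x+1) h(x+1)` by `e2_cs1_three`. -/
theorem e2_cs1_parts (n : ℕ) [NeZero n] (h : ZMod n → ℝ) :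
    ∑ x, (cs1 n (x + 1) - cs1 n x) * (h (x + 1) - h x)
      = (2 - 2 * Real.cos (2 * Real.pi / n)) * ∑ x, cs1 n x * h x := by
  have s1 : ∑ x, cs1 n (x + 1) * h (x + 1) = ∑ x, cs1 n x * h x :=
    Equiv.sum_comp (Equiv.addRight (1 : ZMod n)) (fun x => cs1 n x * h x)
  have s2 : ∑ x, cs1 n (x + 1 + 1) * h (x + 1) = ∑ x, cs1 n (x + 1) * h x :=
    Equiv.sum_comp (Equiv.addRight (1 : ZMod n)) (fun x => cs1 n (x + 1) * h x)
  have s3 : ∑ x, (cs1 n (x + 1 + 1) + cs1 n x) * h (x + 1) =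
      2 * Real.cos (2 * Real.pi / n) * ∑ x, cs1 n x * h x := by
    rw [← s1, Finset.mul_sum]
    exact Finset.sum_congr rfl fun x _ => by rw [e2_cs1_three]; ring
  have s4 : ∑ x, (cs1 n (x + 1 + 1) + cs1 n x) * h (x + 1) =
      ∑ x, cs1 n (x + 1) * h x + ∑ x, cs1 n x * h (x + 1) := by
    rw [← s2, ← Finset.sum_add_distrib]
    exact Finset.sum_congr rfl fun x _ => by ring
  calc ∑ x, (cs1 n (x + 1) - cs1 n x) * (h (x + 1) - h x)
      = ∑ x, cs1 n (x + 1) * h (x + 1) + ∑ x, cs1 n x * h x -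
          (∑ x, cs1 n (x + 1) * h x + ∑ x, cs1 n x * h (x + 1)) := by
        rw [← Finset.sum_add_distrib, ← Finset.sum_add_distrib, ← Finset.sum_sub_distrib]
        exact Finset.sum_congr rfl fun x _ => by ring
    _ = (2 - 2 * Real.cos (2 * Real.pi / n)) * ∑ x, cs1 n x * h x := by
        rw [← s4, s3, s1]
        ring

/-- sums over `ZMod n` as sums over `range n`. -/
theorem e2t_sum_zmod (n : ℕ) [NeZero n] (f : ZMod n → ℝ) :
    ∑ x, f x = ∑ k ∈ Finset.range n, f (k : ZMod n) := by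
  symm
  refine Finset.sum_nbij' (fun k : ℕ => (k : ZMod n)) (fun x : ZMod n => x.val) ?_ ?_ ?_ ?_ ?_
  · intro k _
    exact Finset.mem_univ _
  · intro x _
    exact Finset.mem_range.2 (ZMod.val_lt x)
  · intro k hk
    exact ZMod.val_natCast_of_lt (Finset.mem_range.1 hk)
  · intro x _
    exact ZMod.natCast_zmod_val x
  · intro k _
    rfl

/-- telescoping: `∑_{k<n} cos (2θ k) = 0`, `θ = 2π/n`, `n ≥ 3`. -/
theorem e2t_sum_cos_even {n : ℕ} (hn : 3 ≤ n) :
    ∑ k ∈ Finset.range n, Real.cos (2 * (2 * Real.pi / n) * k) = 0 := by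
  have hn' : (3 : ℝ) ≤ n := by exact_mod_cast hn
  have hn0 : (n : ℝ) ≠ 0 := by linarith
  obtain ⟨θ, hθ⟩ : ∃ θ : ℝ, θ = 2 * Real.pi / n := ⟨_, rfl⟩
  have hpos : 0 < θ := by rw [hθ]; exact div_pos (by positivity) (by linarith)
  have hlt : θ < Real.pi := by
    rw [hθ, div_lt_iff₀ (by linarith)]
    nlinarith [Real.pi_pos]
  have hs : Real.sin θ ≠ 0 := (Real.sin_pos_of_pos_of_lt_pi hpos hlt).ne'
  rw [← hθ]
  have key : ∀ k : ℕ, Real.sin θ * Real.cos (2 * θ * k) =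
      Real.sin (2 * θ * ((k + 1 : ℕ) : ℝ) - θ) / 2 - Real.sin (2 * θ * (k : ℝ) - θ) / 2 := by
    intro k
    have e1 : 2 * θ * ((k + 1 : ℕ) : ℝ) - θ = 2 * θ * k + θ := by push_cast; ring
    rw [e1, Real.sin_add, Real.sin_sub]
    ring
  have h1 : Real.sin θ * ∑ k ∈ Finset.range n, Real.cos (2 * θ * k) = 0 := by
    rw [Finset.mul_sum, Finset.sum_congr rfl fun k _ => key k,
      Finset.sum_range_sub (fun k : ℕ => Real.sin (2 * θ * (k : ℝ) - θ) / 2)]
    have e3 : 2 * θ * (n : ℝ) - θ = ((2 : ℕ) : ℝ) * (2 * Real.pi) - θ := by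
      have : θ * (n : ℝ) = 2 * Real.pi := by
        rw [hθ]
        field_simp
      push_cast
      linear_combination 2 * this
    rw [e3, Real.sin_nat_mul_two_pi_sub]
    simp
  exact (mul_eq_zero.1 h1).resolve_left hs

/-- L-E2-T3.  `cos² = (1 + cos 2·)/2`.  `C = ∑_x cos (2θ x.val)`, `D = ∑_x sin (2θ x.val)` are invariant under `x ↦ x + 1` (as in `e2_cs1_natCast`: the summands are functions of `m mod n`), so
`C = cos 2θ C - sin 2θ D`, `D = sin 2θ C + cos 2θ D`; hence `(2 - 2 cos 2θ) C = 0`; `cos (4π/n) ≠ 1` for `n ≥ 3` (`Real.cos_eq_one_iff_of_lt_of_lt`, `0 < 4π/n < 2π`).  `∑_x 1 = n` (`ZMod.card`). -/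
theorem e2_cs1_sq_sum (n : ℕ) [NeZero n] (hn : 3 ≤ n) : ∑ x, cs1 n x ^ 2 = (n : ℝ) / 2 := by
  have hn' : (3 : ℝ) ≤ n := by exact_mod_cast hn
  have hn0 : (n : ℝ) ≠ 0 := by linarith
  have h1 : ∑ x : ZMod n, cs1 n x ^ 2 = ∑ k ∈ Finset.range n, Real.cos (2 * Real.pi / n * k) ^ 2 := by
    rw [e2t_sum_zmod n (fun x => cs1 n x ^ 2)]
    refine Finset.sum_congr rfl fun k _ => ?_
    rw [e2_cs1_natCast]
    congr 2
    ring
  rw [h1]
  have h2 : ∀ k : ℕ, Real.cos (2 * Real.pi / n * k) ^ 2 =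
      1 / 2 + (1 / 2) * Real.cos (2 * (2 * Real.pi / n) * k) := by
    intro k
    have e : 2 * (2 * Real.pi / n) * (k : ℝ) = 2 * (2 * Real.pi / n * k) := by ring
    rw [Real.cos_sq, e]
    ring
  rw [Finset.sum_congr rfl fun k _ => h2 k, Finset.sum_add_distrib, ← Finset.mul_sum,
    e2t_sum_cos_even hn, Finset.sum_const, Finset.card_range, nsmul_eq_mul]
  ring

/-- `λ = 4 sin² (π/n)`. -/
theorem e2_lam_eq (n : ℕ) : 2 - 2 * Real.cos (2 * Real.pi / n) = 4 * Real.sin (Real.pi / n) ^ 2 := by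
  have e : 2 * Real.pi / n = 2 * (Real.pi / n) := by ring
  rw [e, Real.cos_two_mul, Real.sin_sq]
  ring

/-- `λ > 0` for `n ≥ 2`. -/
theorem e2_lam_pos (n : ℕ) (hn : 2 ≤ n) : 0 < 2 - 2 * Real.cos (2 * Real.pi / n) := by
  rw [e2_lam_eq]
  have hn' : (2 : ℝ) ≤ n := by exact_mod_cast hn
  have h1 : 0 < Real.pi / n := by positivity
  have h2 : Real.pi / n < Real.pi := by
    rw [div_lt_iff₀ (by positivity)]
    nlinarith [Real.pi_pos]
  have := Real.sin_pos_of_pos_of_lt_pi h1 h2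
  positivity

/-- the flow `2π ∇ (f/λ)` -/
def torω (n : ℕ) [NeZero n] (e : (torus n).E) : ℝ :=
  2 * Real.pi * ((n : ℝ)⁻¹ ^ 2 / (2 - 2 * Real.cos (2 * Real.pi / n))) *
    (cs1 n ((torus n).tgt e).1 - cs1 n ((torus n).src e).1)

/-- L-E2-T4.  Sum over `E = V × Bool` (`Fintype.sum_prod_type`, `Fintype.sum_bool`): the `false` edges have `torω = 0` (`tgt.1 = src.1`); for the `true` edges, for each `y`, `e2_cs1_parts n (fun x => (h (x,y) : ℝ))`;
cancel `λ` (`e2_lam_pos`).  `push_cast` for the integer difference. -/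
theorem e2_tor_flow (n : ℕ) [NeZero n] (hn : 2 ≤ n) (h : (torus n).V → ℤ) :
    ∑ v : (torus n).V, ((n : ℝ)⁻¹ ^ 2 * cs1 n v.1) * (2 * Real.pi * (h v : ℝ))
      = ∑ e, torω n e * ((h ((torus n).tgt e) - h ((torus n).src e) : ℤ) : ℝ) := by
  have hlam := e2_lam_pos n hn
  have hR : ∑ e : (torus n).E, torω n e * ((h ((torus n).tgt e) - h ((torus n).src e) : ℤ) : ℝ) =
      ∑ e : (ZMod n × ZMod n) × Bool,
        torω n e * ((h ((torus n).tgt e) : ℝ) - (h ((torus n).src e) : ℝ)) := by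
    refine Finset.sum_congr rfl fun e _ => ?_
    push_cast
    rfl
  have hLs : ∑ v : (torus n).V, ((n : ℝ)⁻¹ ^ 2 * cs1 n v.1) * (2 * Real.pi * (h v : ℝ)) =
      ∑ v : ZMod n × ZMod n, ((n : ℝ)⁻¹ ^ 2 * cs1 n v.1) * (2 * Real.pi * (h v : ℝ)) := rfl
  rw [hR, hLs]
  symm
  rw [Fintype.sum_prod_type]
  have hF : ∀ v : ZMod n × ZMod n, torω n (v, false) = 0 := by
    intro v
    simp [torω, torus]
  have hT : ∀ v : ZMod n × ZMod n, torω n (v, true) *
      ((h ((torus n).tgt (v, true)) : ℝ) - (h ((torus n).src (v, true)) : ℝ)) =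
      2 * Real.pi * ((n : ℝ)⁻¹ ^ 2 / (2 - 2 * Real.cos (2 * Real.pi / n))) *
        ((cs1 n (v.1 + 1) - cs1 n v.1) * ((h (v.1 + 1, v.2) : ℝ) - (h (v.1, v.2) : ℝ))) := by
    intro v
    simp only [torω, torus, if_true]
    ring
  simp only [Fintype.sum_bool, hF, zero_mul, add_zero]
  rw [Finset.sum_congr rfl fun v _ => hT v, ← Finset.mul_sum, Fintype.sum_prod_type_right,
    Finset.sum_congr rfl fun y _ => e2_cs1_parts n (fun x => (h (x, y) : ℝ)), ← Finset.mul_sum,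
    Fintype.sum_prod_type_right (f := fun v : ZMod n × ZMod n =>
      ((n : ℝ)⁻¹ ^ 2 * cs1 n v.1) * (2 * Real.pi * (h v : ℝ))), Finset.mul_sum, Finset.mul_sum]
  refine Finset.sum_congr rfl fun y _ => ?_
  rw [Finset.mul_sum, Finset.mul_sum]
  refine Finset.sum_congr rfl fun x _ => ?_
  obtain ⟨lam, hl⟩ : ∃ lam : ℝ, lam = 2 - 2 * Real.cos (2 * Real.pi / n) := ⟨_, rfl⟩
  rw [← hl] at hlam ⊢
  have hl0 := hlam.ne'
  field_simp

/-- L-E2-T4.  As before: `∑_e torω² = (2π n⁻²/λ)² ∑_y ∑_x (c(x+1) - c(x))²`, `e2_cs1_parts n (cs1 n)` gives `λ ∑ c²`, `e2_cs1_sq_sum`, `∑_y 1 = n`; `e2_lam_eq`; `field_simp`. -/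
theorem e2_tor_cost (n : ℕ) [NeZero n] (hn : 3 ≤ n) :
    ∑ e, torω n e ^ 2 = 4 * Real.pi ^ 2 * (1 / (8 * (n : ℝ) ^ 2 * Real.sin (Real.pi / n) ^ 2)) := by
  have hlam := e2_lam_pos n (by omega)
  have hn' : (3 : ℝ) ≤ n := by exact_mod_cast hn
  have hn0 : (n : ℝ) ≠ 0 := by linarith
  have hR : ∑ e : (torus n).E, torω n e ^ 2 = ∑ e : (ZMod n × ZMod n) × Bool, torω n e ^ 2 := rfl
  rw [hR, Fintype.sum_prod_type]
  have hF : ∀ v : ZMod n × ZMod n, torω n (v, false) = 0 := by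
    intro v
    simp [torω, torus]
  have hT : ∀ v : ZMod n × ZMod n, torω n (v, true) ^ 2 =
      (2 * Real.pi * ((n : ℝ)⁻¹ ^ 2 / (2 - 2 * Real.cos (2 * Real.pi / n)))) ^ 2 *
        ((cs1 n (v.1 + 1) - cs1 n v.1) * (cs1 n (v.1 + 1) - cs1 n v.1)) := by
    intro v
    simp only [torω, torus, if_true]
    ring
  simp only [Fintype.sum_bool, hF, ne_eq, OfNat.ofNat_ne_zero, not_false_eq_true, zero_pow,
    add_zero]
  rw [Finset.sum_congr rfl fun v _ => hT v, ← Finset.mul_sum, Fintype.sum_prod_type_right,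
    Finset.sum_congr rfl fun y _ => e2_cs1_parts n (cs1 n), Finset.sum_const, Finset.card_univ,
    ZMod.card, nsmul_eq_mul]
  have hsq : ∑ x, cs1 n x * cs1 n x = (n : ℝ) / 2 := by
    rw [← e2_cs1_sq_sum n hn]
    exact Finset.sum_congr rfl fun x _ => (pow_two _).symm
  rw [hsq]
  have hs : Real.sin (Real.pi / n) ≠ 0 := by
    intro h0
    rw [e2_lam_eq, h0] at hlam
    simp at hlam
  rw [e2_lam_eq]
  field_simp
  ring

/-- `n sin (π/n) ≥ 2` for `n ≥ 2` (Jordan), so the reference cost is at most `1/32`. -/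
theorem e2_cost_le (n : ℕ) (hn : 2 ≤ n) : 1 / (8 * (n : ℝ) ^ 2 * Real.sin (Real.pi / n) ^ 2) ≤ 1 / 32 := by
  have hn' : (2 : ℝ) ≤ n := by exact_mod_cast hn
  have hn0 : (0 : ℝ) < n := by linarith
  have h1 : 0 ≤ Real.pi / n := by positivity
  have h2 : Real.pi / n ≤ Real.pi / 2 := by
    apply div_le_div_of_nonneg_left Real.pi_pos.le (by norm_num) hn'
  have h3 := Real.mul_le_sin h1 h2
  have h4 : 2 / Real.pi * (Real.pi / n) = 2 / n := by
    field_simp
  rw [h4] at h3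
  have h5 : 2 ≤ n * Real.sin (Real.pi / n) := by
    have := mul_le_mul_of_nonneg_left h3 hn0.le
    have e : (n : ℝ) * (2 / n) = 2 := by field_simp
    rwa [e] at this
  have h6 : (4 : ℝ) ≤ (n * Real.sin (Real.pi / n)) ^ 2 := by nlinarith
  apply one_div_le_one_div_of_le (by norm_num)
  nlinarith

/-- Stores the on-demand equation lemmas of the definitions above in THIS module (rule 6 hygiene). -/
theorem e2_torus_forced : True := by
  have := @cs1.eq_1
  have := @torω.eq_1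
  trivial

end

end PartTorus

/-!
# ROW 285, package BP-E2 (helper148), file 7: the physical torus inputs of `Base/Flow.lean`.

`tor_differentiable`, `tor_response_lower`, `tor_response_upper`: statements of `Base/Flow.lean` verbatim, with `Flow.cosCost n` unfolded (`= 1 / (8 n² sin² (π/n))`).
-/

section PartTor

open Rsd Filter Topology

noncomputable section

theorem e2_torVar_eq (n : ℕ) [NeZero n] (b : ℝ) :
    torVar b n = (torus n).Vr b {((0 : ZMod n), (0 : ZMod n))}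
      fun h => ∑ v : (torus n).V, ((n : ℝ)⁻¹ ^ 2 * cs1 n v.1) * h v := by
  rw [torVar, dif_neg (NeZero.ne n)]
  congr 1
  funext h
  rw [Finset.mul_sum]
  refine Finset.sum_congr rfl fun v _ => ?_
  unfold cs1
  ring

theorem e2_torPhase_eq (n : ℕ) [NeZero n] (b : ℝ) :
    torPhase b n = (torus n).Ex b {((0 : ZMod n), (0 : ZMod n))}
      fun h => Real.cos (∑ v : (torus n).V, ((n : ℝ)⁻¹ ^ 2) * h v) := by
  rw [torPhase, dif_neg (NeZero.ne n)]
  congr 1
  funext h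
  exact congrArg Real.cos (Finset.mul_sum (Finset.univ : Finset (torus n).V) (fun v => h v) ((n : ℝ)⁻¹ ^ 2))

/-- finite-volume analyticity ([E] L2.5), real form -/
theorem tor_differentiable (n : ℕ) (b : ℝ) (hb : 0 < b) :
    DifferentiableAt ℝ (fun b => torVar b n) b ∧ DifferentiableAt ℝ (fun b => torPhase b n) b := by
  rcases Nat.eq_zero_or_pos n with rfl | hn
  · constructor
    · simp [torVar]
    · simp [torPhase]
  · have : NeZero n := ⟨hn.ne'⟩
    constructor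
    · simp only [e2_torVar_eq n]
      exact e2_graph_differentiable_Vr (e2_torus_proper n) _ b hb
    · simp only [e2_torPhase_eq n]
      exact e2_graph_differentiable_cos (e2_torus_proper n) _ b hb

/-- [E] L2.6 (temperature response) on the zero-winding torus, lower bound -/
theorem tor_response_lower (n : ℕ) (hn : 3 ≤ n) (b : ℝ) (hb : 0 < b) :
    torVar b n ^ 2 / (4 * Real.pi ^ 2 * b ^ 2 * (1 / (8 * (n : ℝ) ^ 2 * Real.sin (Real.pi / n) ^ 2)))
      ≤ deriv (fun b => torVar b n) b := by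
  have : NeZero n := ⟨by omega⟩
  simp only [e2_torVar_eq n]
  have h := e2_graph_response_lower (e2_torus_proper n) (fun v => (n : ℝ)⁻¹ ^ 2 * cs1 n v.1) (torω n)
    (fun h _ => e2_tor_flow n (by omega) h) b hb
  have h0 := e2_graph_deriv_nonneg (e2_torus_proper n) (fun v => (n : ℝ)⁻¹ ^ 2 * cs1 n v.1) b hb
  rw [e2_tor_cost n hn] at h
  refine div_le_of_le_mul₀ (by positivity) h0 (h.trans (le_of_eq ?_))
  ring

theorem e2_Cup_mono {s t : ℝ} (h : s ≤ t) : Cup s ≤ Cup t := by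
  unfold Cup
  have : Real.exp (s * (Real.exp (1 / 2) / 2)) ≤ Real.exp (t * (Real.exp (1 / 2) / 2)) :=
    Real.exp_le_exp.2 (mul_le_mul_of_nonneg_right h (by positivity))
  exact mul_le_mul_of_nonneg_left this (by positivity)

theorem e2_Cup_pos (t : ℝ) : 0 < Cup t := by
  unfold Cup
  positivity

theorem e2_torus_card (n : ℕ) [NeZero n] : (Fintype.card (torus n).E : ℝ) = 2 * (n : ℝ) ^ 2 := by
  have : Fintype.card (torus n).E = Fintype.card ((ZMod n × ZMod n) × Bool) := rfl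
  rw [this]
  simp [ZMod.card]
  ring

/-- [E] L2.6, upper bound -/
theorem tor_response_upper (b0 b1 : ℝ) (h0 : 0 < b0) : ∃ C : ℝ, ∀ n : ℕ, 3 ≤ n → ∀ b ∈ Set.Icc b0 b1,
    deriv (fun b => torVar b n) b ≤ C * (n : ℝ) ^ 2 := by
  refine ⟨2 * (Cup b1 * (4 * Real.pi ^ 2 * (1 / 32))), fun n hn b hb => ?_⟩
  have : NeZero n := ⟨by omega⟩
  have hb0 : 0 < b := lt_of_lt_of_le h0 hb.1
  simp only [e2_torVar_eq n]
  have h := e2_graph_response_upper (e2_torus_proper n) (fun v => (n : ℝ)⁻¹ ^ 2 * cs1 n v.1) (torω n)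
    (fun h _ => e2_tor_flow n (by omega) h) b hb0
  rw [e2_tor_cost n hn, e2_torus_card] at h
  refine h.trans ?_
  have h1 := e2_cost_le n (by omega)
  have h2 := e2_Cup_mono hb.2
  have h3 : Cup b * (4 * Real.pi ^ 2 * (1 / (8 * (n : ℝ) ^ 2 * Real.sin (Real.pi / n) ^ 2)))
      ≤ Cup b1 * (4 * Real.pi ^ 2 * (1 / 32)) :=
    mul_le_mul h2 (mul_le_mul_of_nonneg_left h1 (by positivity)) (by positivity) (e2_Cup_pos b1).le
  calc 2 * (n : ℝ) ^ 2 * (Cup b * (4 * Real.pi ^ 2 * (1 / (8 * (n : ℝ) ^ 2 * Real.sin (Real.pi / n) ^ 2))))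
      ≤ 2 * (n : ℝ) ^ 2 * (Cup b1 * (4 * Real.pi ^ 2 * (1 / 32))) :=
        mul_le_mul_of_nonneg_left h3 (by positivity)
    _ = _ := by ring

end

end PartTor

end Claimed.Agent.R285.E2
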